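import Vale.Agent.P158.Branch.Select
import Vale.Agent.P158.Chain.Defs

/-!
# P158, module A1: a margin event costs a branch vertex

For a fixed root and any atomless law: the event that one geodesic to the root uses a given edge with
a margin while another passes near by without using it has, up to `η`, at most a constant times the
probability of a branch vertex near the edge. The constants do not depend on the domain, the root,
the leaves or the position of the edge.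
-/

namespace Vale.P158

open MeasureTheory ProbabilityTheory SimpleGraph Finset
open scoped ENNReal

noncomputable section

namespace Branch

lemma exists_scales {μ : Measure ℝ} [IsProbabilityMeasure μ] {g : ℝ} (hg : 0 < g) (c : Cells μ g)
    (K : ℕ) {η : ℝ≥0∞} (hη : 0 < η) :
    ∃ σ : Scales c, σ.K = K ∧ ∀ s : Z2,
      iidLaw (Sym2 Z2) μ {t | ¬∑ e ∈ edgeBox s σ.K, t e ≤ σ.Γ} ≤ η ∧
      iidLaw (Sym2 Z2) μ {t | ¬∑ e ∈ edgeBox s σ.rA, t e ≤ σ.ℓ} ≤ η ∧
      iidLaw (Sym2 Z2) μ {t | ¬∑ e ∈ edgeBox s σ.R, t e ≤ σ.ΓR} ≤ η ∧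
      iidLaw (Sym2 Z2) μ {t | ¬∀ x ∈ boxSet s σ.K, LongLow c t x σ.n₁} ≤ η ∧
      iidLaw (Sym2 Z2) μ {t | ¬∀ x ∈ boxSet s σ.R, LongLow c t x σ.n₂} ≤ η := by
  have hd := c.dmin_pos
  obtain ⟨Γ, hΓ, hsumK⟩ := exists_sum_le μ K hη
  obtain ⟨n₁, hlowK⟩ := exists_longLow c K hη
  obtain ⟨kA, hkA⟩ := exists_nat_ge (2 * Γ / c.dmin)
  obtain ⟨kB, hkB⟩ := exists_nat_gt ((2 * Γ + g * kA) / c.dmin)
  obtain ⟨kI, hkI⟩ := exists_nat_gt ((2 * Γ + g * kA + (2 * Γ + g * kA + g)) / c.dmin)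
  set Λ := 6 * Γ + g * kI + g * kA + (2 * Γ + g * kA + g) + 1
  obtain ⟨n', hn'⟩ := exists_nat_ge (Λ / (c.dmin / 2))
  set n := max n₁ n'
  set rA := K + 2 * (n + kA)
  obtain ⟨ℓ, -, hsumA⟩ := exists_sum_le μ rA hη
  obtain ⟨b', hb'⟩ := exists_nat_ge ((ℓ + Λ) / (c.dmin / 2))
  obtain ⟨m, hm⟩ := exists_nat_gt ((2 * Γ + g * kA) / g)
  let nB : ℕ → ℕ := fun j => Nat.rec (max n₁ b') (fun _ a => 2 * (a + kB)) j
  set R := max rA (max (K + 2 * (n + kI)) (K + nB m))
  obtain ⟨ΓR, -, hsumR⟩ := exists_sum_le μ R hη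
  obtain ⟨n₂, hlowR⟩ := exists_longLow c R hη
  set C := ΓR + g * kI + g * kA + (2 * Γ + g * kA + g)
  refine ⟨⟨K, Γ, n₁, kA, kB, kI, n, rA, ℓ, m, nB, R, ΓR, n₂,
    R + max n₂ ⌈C / (c.dmin / 2)⌉₊, ?_, ?_, ?_, le_max_left _ _, ?_, le_rfl, le_max_left _ _, ?_,
    fun _ => rfl, ?_, (le_max_left _ _).trans (le_max_right _ _), le_max_left _ _,
    (le_max_right _ _).trans (le_max_right _ _), ?_, ?_⟩, rfl,
    fun s => ⟨hsumK s, hsumA s, hsumR s, hlowK s, hlowR s⟩⟩
  · rw [div_le_iff₀ hd] at hkA; linarith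
  · rw [div_lt_iff₀ hd] at hkB; linarith
  · rw [div_lt_iff₀ hd] at hkI; linarith
  · rw [div_le_iff₀ (half_pos hd)] at hn'
    have : (n' : ℝ) * (c.dmin / 2) ≤ (n : ℝ) * (c.dmin / 2) :=
      mul_le_mul_of_nonneg_right (by exact_mod_cast le_max_right n₁ n') (by positivity)
    linarith
  · rw [div_le_iff₀ (half_pos hd)] at hb'
    have : (b' : ℝ) * (c.dmin / 2) ≤ ((max n₁ b' : ℕ) : ℝ) * (c.dmin / 2) :=
      mul_le_mul_of_nonneg_right (by exact_mod_cast le_max_right n₁ b') (by positivity)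
    change _ ≤ c.dmin / 2 * ((max n₁ b' : ℕ) : ℝ)
    linarith
  · rw [div_lt_iff₀ hg] at hm; linarith
  · intro len _ hlen
    have h1 : (len : ℝ) ≤ C / (c.dmin / 2) := by rw [le_div_iff₀ (half_pos hd)]; linarith
    have h2 : len ≤ ⌈C / (c.dmin / 2)⌉₊ := Nat.cast_le.1 (h1.trans (Nat.le_ceil _))
    omega
  · omega

lemma resample_eq_mix (t ξ : Sym2 Z2 → ℝ) (F : Finset (Sym2 Z2)) :
    resample (↑F : Set (Sym2 Z2)) (t, ξ) = mix t ξ F := by
  funext e
  by_cases h : e ∈ F <;> simp [resample, mix, h]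

/-- **Module A1.** -/
theorem margin_le_branch (μ : Measure ℝ) [IsProbabilityMeasure μ] [NullSingletonClass μ]
    (hμ : ∀ᵐ x ∂μ, 0 ≤ x) (K : ℕ) {g : ℝ} (hg : 0 < g) {η : ℝ≥0∞} (hη : 0 < η) :
    ∃ (C : ℝ≥0∞) (L : ℕ), C ≠ ∞ ∧ K ≤ L ∧ ∀ (U : Set Z2) (s : Z2), U.Finite →
      (∀ x ∈ U, ∀ y ∈ U, JoinedIn U x y) → (∀ x, supDist s x ≤ L → x ∈ U) →
      ∀ (y : Z2), L < supDist s y → ∀ S : Set Z2, (∀ x ∈ S, L < supDist s x) →
      ∀ e : Sym2 Z2, s ∈ e →
      iidLaw (Sym2 Z2) μ {t | MarginEvent t U y S e s K g} ≤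
        η + C * iidLaw (Sym2 Z2) μ {t | BrEvent t U y S s L} := by
  classical
  obtain ⟨c⟩ := exists_cells μ hμ hg
  obtain ⟨σ, rfl, hσ⟩ := exists_scales hg c K (ENNReal.div_pos hη.ne' (show (5 : ℝ≥0∞) ≠ ∞ by simp))
  set N := ((2 * σ.R + 1) ^ 2) ^ 2 with hN
  set lam : ℝ≥0∞ := ∏ j, μ (c.L j) with hlam
  have hlam0 : lam ≠ 0 := Finset.prod_ne_zero_iff.2 fun j _ => c.hL j
  have hlam1 : lam ≤ 1 := Finset.prod_le_one' fun j _ => prob_le_one
  have hlamj : ∀ j, lam ≤ μ (c.L j) := fun j => by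
    rw [hlam, ← Finset.mul_prod_erase _ _ (mem_univ j)]
    exact mul_le_of_le_one_right' (Finset.prod_le_one' fun j _ => prob_le_one)
  refine ⟨((c.m + 1) ^ N : ℕ) * ((2 ^ N : ℕ) / lam ^ N), σ.L, ?_, σ.K_le_R.trans σ.R_le_L, ?_⟩
  · exact ENNReal.mul_ne_top (ENNReal.natCast_ne_top _)
      (ENNReal.div_ne_top (ENNReal.natCast_ne_top _) (pow_ne_zero _ hlam0))
  intro U s hUf hconn hbox y hy S hS e₀ hs
  set P := iidLaw (Sym2 Z2) μ with hP
  set E : Set (Sym2 Z2 → ℝ) := {t | MarginEvent t U y S e₀ s σ.K g}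
  set Br : Set (Sym2 Z2 → ℝ) := {t | BrEvent t U y S s σ.L}
  set A' := toMeasurable P Br ∪ toMeasurable P {t | ¬PathUnique t}
  have hA'm : MeasurableSet A' :=
    (measurableSet_toMeasurable _ _).union (measurableSet_toMeasurable _ _)
  have hA' : P A' ≤ P Br := by
    refine (measure_union_le _ _).trans ?_
    rw [measure_toMeasurable, measure_toMeasurable, ae_iff.1 (ae_pathUnique μ), add_zero]
  -- the atypical configurations
  have hbad : P {t | ¬Good σ s t} ≤ η := by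
    obtain ⟨h1, h2, h3, h4, h5⟩ := hσ s
    have h0 : P {t | ¬∀ e, 0 ≤ t e} = 0 := ae_iff.1 (ae_nonneg μ hμ)
    calc P {t | ¬Good σ s t}
        ≤ P ({t | ¬∀ e, 0 ≤ t e} ∪ {t | ¬∑ e ∈ edgeBox s σ.K, t e ≤ σ.Γ} ∪
            {t | ¬∑ e ∈ edgeBox s σ.rA, t e ≤ σ.ℓ} ∪ {t | ¬∑ e ∈ edgeBox s σ.R, t e ≤ σ.ΓR} ∪
            {t | ¬∀ x ∈ boxSet s σ.K, LongLow c t x σ.n₁} ∪
            {t | ¬∀ x ∈ boxSet s σ.R, LongLow c t x σ.n₂}) := by
          refine measure_mono fun t ht => ?_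
          by_contra hcon
          simp only [Set.mem_union, Set.mem_ofPred_eq, not_or, not_not] at hcon
          exact ht ⟨hcon.1.1.1.1.1, hcon.1.1.1.1.2, hcon.1.1.1.2, hcon.1.1.2, hcon.1.2, hcon.2⟩
      _ ≤ 0 + η / 5 + η / 5 + η / 5 + η / 5 + η / 5 := by
          refine (measure_union_le _ _).trans (add_le_add ?_ h5)
          refine (measure_union_le _ _).trans (add_le_add ?_ h4)
          refine (measure_union_le _ _).trans (add_le_add ?_ h3)
          refine (measure_union_le _ _).trans (add_le_add ?_ h2)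
          exact (measure_union_le _ _).trans (add_le_add h0.le h1)
      _ = 5 * (η / 5) := by ring
      _ ≤ η := ENNReal.mul_div_le
  -- one pattern of cells
  set I := edgeBox s σ.R
  have hI : I.card ≤ N := card_edgeBox s σ.R
  set A : (I → Option (Fin c.m)) → Set (Sym2 Z2 → ℝ) := fun τ =>
    {t | Good σ s t ∧ t ∈ E ∧
      ∀ e : I, t e ∈ c.low → ∃ j, τ e = some j ∧ t e ∈ c.U j}
  have hτ : ∀ τ, P (A τ) ≤ (2 ^ N : ℕ) / lam ^ N * P Br := by
    intro τ
    set W : Sym2 Z2 → Set ℝ := fun e =>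
      if h : e ∈ I then (τ ⟨e, h⟩).elim Set.univ c.L else Set.univ
    have hWm : ∀ e, MeasurableSet (W e) := fun e => by
      simp only [W]
      split_ifs with h
      · cases τ ⟨e, h⟩ with
        | none => exact .univ
        | some j => exact c.hLm j
      · exact .univ
    have hWge : ∀ e, lam ≤ μ (W e) := fun e => by
      simp only [W]
      split_ifs with h
      · cases τ ⟨e, h⟩ with
        | none => simpa using hlam1
        | some j => exact hlamj j
      · simpa using hlam1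
    have hB : lam ^ N ≤ P ((I : Set (Sym2 Z2)).pi W) := by
      rw [hP, iidLaw, Measure.infinitePi_pi _ fun e _ => hWm e]
      refine (pow_le_pow_right_of_le_one' hlam1 hI).trans ?_
      rw [← Finset.prod_const]
      exact Finset.prod_le_prod' fun e _ => hWge e
    have hmul : P (A τ) * P ((I : Set (Sym2 Z2)).pi W) ≤ (2 ^ N : ℕ) * P Br := by
      rw [← Measure.prod_prod]
      calc (P.prod P) (A τ ×ˢ (I : Set (Sym2 Z2)).pi W)
          ≤ (P.prod P) (⋃ F ∈ I.powerset, resample (↑F : Set (Sym2 Z2)) ⁻¹' A') := by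
            refine measure_mono ?_
            rintro ⟨t, ξ⟩ ⟨⟨htg, htE, htc⟩, hξ⟩
            obtain ⟨F, hF, hres⟩ := select σ hg htg hUf hconn hbox hy hS hs htE (ξ := ξ)
              fun e he hl => by
                obtain ⟨j, hj, hj'⟩ := htc ⟨e, he⟩ hl
                refine ⟨j, hj', ?_⟩
                have := hξ e he
                simpa [W, show e ∈ I from he, hj] using this
            refine Set.mem_iUnion₂.2 ⟨F, mem_powerset.2 hF, Set.mem_preimage.2 ?_⟩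
            rw [resample_eq_mix]
            exact hres.imp (fun h => subset_toMeasurable _ _ h) (fun h => subset_toMeasurable _ _ h)
        _ ≤ ∑ _F ∈ I.powerset, P A' :=
            (measure_biUnion_finset_le _ _).trans (sum_le_sum fun F _ =>
              ((measurePreserving_resample μ (↑F : Set (Sym2 Z2))).measure_preimage
                hA'm.nullMeasurableSet).le)
        _ ≤ (2 ^ N : ℕ) * P Br := by
            rw [Finset.sum_const, card_powerset, nsmul_eq_mul]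
            exact mul_le_mul' (Nat.cast_le.2 (Nat.pow_le_pow_right two_pos hI)) hA'
    rw [← ENNReal.mul_div_right_comm,
      ENNReal.le_div_iff_mul_le (Or.inl (pow_ne_zero _ hlam0))
        (Or.inl (ENNReal.pow_ne_top (ne_top_of_le_ne_top ENNReal.one_ne_top hlam1)))]
    exact (mul_le_mul_right hB _).trans hmul
  -- all patterns
  calc P E ≤ P ({t | ¬Good σ s t} ∪ ⋃ τ, A τ) := by
        refine measure_mono fun t ht => ?_
        by_cases hgood : Good σ s t
        swap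
        · exact Or.inl hgood
        refine Or.inr (Set.mem_iUnion.2 ⟨fun e =>
          if h : ∃ j, t e ∈ c.U j then some h.choose else none, hgood, ht, fun e hl => ?_⟩)
        have h : ∃ j, t e ∈ c.U j := Set.mem_iUnion.1 hl
        exact ⟨h.choose, by simp [h], h.choose_spec⟩
    _ ≤ η + ∑ _τ : I → Option (Fin c.m), (2 ^ N : ℕ) / lam ^ N * P Br :=
        (measure_union_le _ _).trans (add_le_add hbad
          ((measure_iUnion_fintype_le _ _).trans (sum_le_sum fun τ _ => hτ τ)))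
    _ ≤ η + ((c.m + 1) ^ N : ℕ) * ((2 ^ N : ℕ) / lam ^ N) * P Br := by
        rw [Finset.sum_const, nsmul_eq_mul, card_univ, mul_assoc]
        refine add_le_add_right (mul_le_mul_left (Nat.cast_le.2 ?_) _) _
        simp only [Fintype.card_fun, Fintype.card_option, Fintype.card_fin, Fintype.card_coe]
        exact Nat.pow_le_pow_right (Nat.succ_pos _) hI

open Vale.Agent.P158.Crossing in
/-- Module A1 for a rectangle, rooted at a boundary point, in the names of `Chain/Defs.lean`. -/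
theorem margin_le_isBranch (μ : Measure ℝ) [IsProbabilityMeasure μ] [NullSingletonClass μ]
    (hμ : ∀ᵐ x ∂μ, 0 ≤ x) (K : ℕ) {g : ℝ} (hg : 0 < g) {η : ℝ≥0∞} (hη : 0 < η) :
    ∃ (C : ℝ≥0∞) (L : ℕ), C ≠ ∞ ∧ K ≤ L ∧ ∀ (B : Rect) (s : Z2),
      (∀ x, supDist s x ≤ L → B.Mem x ∧ ¬B.Bdry x) →
      ∀ y, B.Bdry y → ∀ e : Sym2 Z2, s ∈ e →
      iidLaw (Sym2 Z2) μ {t | MarginEvent t {w | B.Mem w} y {w | B.Bdry w} e s K g} ≤
        η + C * ∑ v ∈ Chain.ball s L, iidLaw (Sym2 Z2) μ {t | Chain.IsBranch t B y v} := by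
  obtain ⟨C, L, hC, hKL, h⟩ := margin_le_branch μ hμ K hg hη
  refine ⟨C, L, hC, hKL, fun B s hins y hy e hs => ?_⟩
  have hU : Set.Finite {w | B.Mem w} :=
    (Set.finite_Icc (B.x0, B.y0) (B.x1, B.y1)).subset fun w hw =>
      ⟨⟨hw.1, hw.2.2.1⟩, ⟨hw.2.1, hw.2.2.2⟩⟩
  have hout : ∀ x, B.Bdry x → L < supDist s x := fun x hx =>
    not_le.1 fun hle => (hins x hle).2 hx
  refine (h {w | B.Mem w} s hU (fun a ha b hb => joinedIn_box B ha hb) (fun x hx => (hins x hx).1)
    y (hout y hy) {w | B.Bdry w} hout e hs).trans ?_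
  gcongr
  refine (measure_mono fun t ht => ?_).trans (measure_biUnion_finset_le _ _)
  obtain ⟨w, a, b, P, Q, hP, hQ, ha, hb, -, hPg, hQg, hw, hdis⟩ := ht
  exact Set.mem_iUnion₂.2 ⟨w, Chain.mem_ball.2 hw,
    a, b, P, Q, ha, hb, hPg, hQg, (hins w hw).2, hP, hQ, hdis⟩

end Branch

end

end Vale.P158
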