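import Vale.Agent.P158.Branch.Core
import Vale.Agent.P158.Peierls

/-!
# P158, A2: branch vertices of one geodesic tree, deterministic part

`IsBr` is a vertex where two geodesics from the leaf set `S` to the root `y` meet first.
In a box of radius `a` there are at most as many branch vertices as entries of tree paths, entries
have disjoint prefixes crossing every level up to the leaves, and two prefix edges of one level
which are not shared by all nearby leaf geodesics are far apart.
-/

namespace Vale.P158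

open SimpleGraph Finset

noncomputable section

namespace Tree

/-- Two leaf geodesics meet first at `w`. -/
def IsBr (t : Sym2 Z2 → ℝ) (U : Set Z2) (y : Z2) (S : Finset Z2) (w : Z2) : Prop :=
  ∃ x ∈ S, ∃ x' ∈ S, ∃ (p : lattice.Walk x y) (p' : lattice.Walk x' y) (hw : w ∈ p.support)
    (hw' : w ∈ p'.support), IsGeoU t U p ∧ IsGeoU t U p' ∧
      ∀ v ∈ (p.takeUntil w hw).support, v ∈ (p'.takeUntil w hw').support → v = w

/-- A tree edge with a leaf geodesic nearby which avoids it. -/
def NonIso (t : Sym2 Z2 → ℝ) (U : Set Z2) (y : Z2) (S : Finset Z2) (K : ℕ) (f : Sym2 Z2) : Prop :=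
  ∃ x ∈ S, ∃ p : lattice.Walk x y, IsGeoU t U p ∧ f ∈ p.edges ∧
    ∃ x' ∈ S, ∃ p' : lattice.Walk x' y, IsGeoU t U p' ∧ f ∉ p'.edges ∧
      ∃ u ∈ f, ∃ v ∈ p'.support, supDist u v ≤ K


variable {t : Sym2 Z2 → ℝ} {U : Set Z2} {y : Z2}

lemma wlen_pos (ht : ∀ e, 0 < t e) {a b : Z2} (r : lattice.Walk a b) (hne : a ≠ b) :
    0 < wlen t r := by
  cases r with
  | nil => exact absurd rfl hne
  | @cons _ z _ h r =>
    rw [wlen_cons]
    linarith [ht s(a, z), wlen_nonneg (fun e => (ht e).le) r]

/-- The potential of the tree. -/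
abbrev pot (t : Sym2 Z2 → ℝ) (U : Set Z2) (y v : Z2) : ℝ := passU t U v y

lemma pot_drop (ht : ∀ e, 0 < t e) {x : Z2} {p : lattice.Walk x y} (h : IsGeoU t U p) {v u : Z2}
    (hv : v ∈ p.support) (hu : u ∈ (p.dropUntil v hv).support) :
    pot t U y u ≤ pot t U y v ∧ (u ≠ v → pot t U y u < pot t U y v) := by
  have h0 : ∀ e, 0 ≤ t e := fun e => (ht e).le
  have hq := h.right h0 hv
  have e1 : wlen t (p.dropUntil v hv) = wlen t ((p.dropUntil v hv).takeUntil u hu) +
      wlen t ((p.dropUntil v hv).dropUntil u hu) := by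
    rw [← wlen_append, Walk.take_spec]
  have e2 := (hq.right h0 hu).wlen_eq_passU h0
  have e3 := hq.wlen_eq_passU h0
  have h1 := wlen_nonneg h0 ((p.dropUntil v hv).takeUntil u hu)
  refine ⟨by unfold pot; linarith, fun hne => ?_⟩
  have h2 := wlen_pos ht ((p.dropUntil v hv).takeUntil u hu) hne.symm
  unfold pot
  linarith

lemma pot_take (ht : ∀ e, 0 < t e) {x : Z2} {p : lattice.Walk x y} (h : IsGeoU t U p) {v u : Z2}
    (hv : v ∈ p.support) (hu : u ∈ (p.takeUntil v hv).support) :
    pot t U y v ≤ pot t U y u := by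
  have hup := p.support_takeUntil_subset_support hv hu
  have hvd : v ∈ (p.dropUntil u hup).support := by
    by_contra hc
    have hvt : v ∈ (p.takeUntil u hup).support := by
      refine ((Walk.mem_support_append_iff _ _).1 ?_).resolve_right hc
      rw [p.take_spec hup]; exact hv
    rcases eq_or_ne u v with rfl | hne
    · exact hc (Walk.start_mem_support _)
    · exact Walk.notMem_support_takeUntil_support_takeUntil_subset hne hv hu hvt
  exact (pot_drop ht h hup hvd).1

lemma mem_drop_of_pot_le (ht : ∀ e, 0 < t e) {x : Z2} {p : lattice.Walk x y} (h : IsGeoU t U p)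
    {v u : Z2} (hv : v ∈ p.support) (hu : u ∈ p.support) (hle : pot t U y u ≤ pot t U y v) :
    u ∈ (p.dropUntil v hv).support := by
  have hu' : u ∈ (p.takeUntil v hv).support ∨ u ∈ (p.dropUntil v hv).support :=
    (Walk.mem_support_append_iff _ _).1 (by rw [p.take_spec]; exact hu)
  refine hu'.elim (fun hu' => ?_) id
  by_cases hne : u = v
  · subst hne; exact Walk.start_mem_support _
  · have hvd : v ∈ (p.dropUntil u hu).support := by
      by_contra hc
      have hvt : v ∈ (p.takeUntil u hu).support := by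
        refine ((Walk.mem_support_append_iff _ _).1 ?_).resolve_right hc
        rw [p.take_spec hu]; exact hv
      exact Walk.notMem_support_takeUntil_support_takeUntil_subset hne hv hu' hvt
    have := (pot_drop ht h hu hvd).2 (Ne.symm hne)
    linarith

lemma mem_take_of_pot_le (ht : ∀ e, 0 < t e) {x : Z2} {p : lattice.Walk x y} (h : IsGeoU t U p)
    {v u : Z2} (hv : v ∈ p.support) (hu : u ∈ p.support) (hle : pot t U y v ≤ pot t U y u) :
    u ∈ (p.takeUntil v hv).support := by
  have hu' : u ∈ (p.takeUntil v hv).support ∨ u ∈ (p.dropUntil v hv).support :=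
    (Walk.mem_support_append_iff _ _).1 (by rw [p.take_spec]; exact hu)
  refine hu'.elim id fun hu' => ?_
  by_cases hne : u = v
  · subst hne; exact Walk.end_mem_support _
  · have := (pot_drop ht h hv hu').2 hne
    linarith

/-- The next vertex towards the root. -/
def nxt (t : Sym2 Z2 → ℝ) (U : Set Z2) (y v : Z2) : Z2 :=
  open Classical in if h : ∃ p : lattice.Walk v y, IsGeoU t U p then h.choose.snd else y

lemma inj_pot (ht : ∀ e, 0 < t e) {x : Z2} {p : lattice.Walk x y} (h : IsGeoU t U p) {v u : Z2}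
    (hv : v ∈ p.support) (hu : u ∈ p.support) (he : pot t U y u = pot t U y v) : u = v := by
  by_contra hne
  exact (((pot_drop ht h hv) (mem_drop_of_pot_le ht h hv hu he.le)).2 hne).ne he

lemma nxt_spec (ht : ∀ e, 0 < t e) (hu : PathUnique t) {v : Z2} {q : lattice.Walk v y}
    (h : IsGeoU t U q) (hne : v ≠ y) :
    nxt t U y v ∈ q.support ∧ pot t U y (nxt t U y v) < pot t U y v ∧
      lattice.Adj v (nxt t U y v) ∧
      ∀ z ∈ q.support, z ≠ v → pot t U y z ≤ pot t U y (nxt t U y v) := by
  have h0 : ∀ e, 0 ≤ t e := fun e => (ht e).le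
  have hex : ∃ p : lattice.Walk v y, IsGeoU t U p := ⟨q, h⟩
  have e : nxt t U y v = q.snd := by
    unfold nxt
    rw [dif_pos hex, hex.choose_spec.unique hu h]
  rw [e]
  cases q with
  | nil => exact absurd rfl hne
  | @cons _ w _ hadj r =>
    rw [Walk.snd_cons]
    have hnot : v ∉ r.support := ((Walk.cons_isPath_iff _ _).1 h.isPath).2
    have hr : IsGeoU t U r := by
      refine ⟨((Walk.cons_isPath_iff _ _).1 h.isPath).1, fun z hz => h.mem (by simp [hz]),
        fun q' _ hq'U => ?_⟩
      have h1 := h.le_walk h0 (q'.cons hadj) fun z hz => by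
        rcases List.mem_cons.1 (by simpa using hz) with rfl | hz
        exacts [h.mem (Walk.start_mem_support _), hq'U z hz]
      rw [wlen_cons, wlen_cons] at h1
      linarith
    have e1 := h.wlen_eq_passU h0
    have e2 := hr.wlen_eq_passU h0
    rw [wlen_cons] at e1
    refine ⟨by simp, ?_, hadj, fun z hz hzv => ?_⟩
    · unfold pot; linarith [ht s(v, w)]
    · have hzr : z ∈ r.support := by
        rcases List.mem_cons.1 (by simpa using hz) with rfl | hz
        exacts [absurd rfl hzv, hz]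
      exact pot_take ht hr hzr (Walk.start_mem_support _)

lemma nxt_spec' (ht : ∀ e, 0 < t e) (hu : PathUnique t) {x v : Z2} {p : lattice.Walk x y}
    (h : IsGeoU t U p) (hv : v ∈ p.support) (hne : v ≠ y) :
    nxt t U y v ∈ p.support ∧ pot t U y (nxt t U y v) < pot t U y v ∧
      lattice.Adj v (nxt t U y v) ∧
      ∀ z ∈ p.support, pot t U y z < pot t U y v → pot t U y z ≤ pot t U y (nxt t U y v) := by
  obtain ⟨h1, h2, h3, h4⟩ := nxt_spec ht hu (h.right (fun e => (ht e).le) hv) hne
  refine ⟨p.support_dropUntil_subset_support hv h1, h2, h3, fun z hz hlt => ?_⟩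
  exact h4 z (mem_drop_of_pot_le ht h hv hz hlt.le) fun e => by subst e; exact lt_irrefl _ hlt

/-- A vertex other than the leaf has a predecessor. -/
lemma exists_pred (ht : ∀ e, 0 < t e) (hu : PathUnique t) {x w : Z2} {p : lattice.Walk x y}
    (h : IsGeoU t U p) (hw : w ∈ p.support) (hne : x ≠ w) :
    ∃ u ∈ p.support, u ≠ y ∧ pot t U y w < pot t U y u ∧ nxt t U y u = w ∧
      ∀ z ∈ p.support, pot t U y w < pot t U y z → pot t U y u ≤ pot t U y z := by
  classical
  have hx : pot t U y w < pot t U y x :=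
    lt_of_le_of_ne (pot_take ht h hw (Walk.start_mem_support _)) fun e =>
      hne (inj_pot ht h hw p.start_mem_support e.symm)
  obtain ⟨u, hu1, hmin⟩ := (p.support.toFinset.filter fun z => pot t U y w < pot t U y z)
    |>.exists_min_image (pot t U y) ⟨x, by simp [hx]⟩
  simp only [Finset.mem_filter, List.mem_toFinset] at hu1 hmin
  have huy : u ≠ y := by
    rintro rfl
    have := (pot_drop ht h hw (Walk.end_mem_support _)).1
    linarith [hu1.2]
  obtain ⟨h1, h2, -, h4⟩ := nxt_spec' ht hu h hu1.1 huy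
  refine ⟨u, hu1.1, huy, hu1.2, ?_, fun z hz hlt => hmin z ⟨hz, hlt⟩⟩
  refine inj_pot ht h hw h1 (le_antisymm ?_ (h4 w hw hu1.2))
  by_contra hc
  push Not at hc
  exact (lt_irrefl (pot t U y u)) ((hmin _ ⟨h1, hc⟩).trans_lt h2)

/-- The vertex of a leaf geodesic just before it enters the box of radius `a` about `c`. -/
def IsEntry (t : Sym2 Z2 → ℝ) (U : Set Z2) (y : Z2) (S : Finset Z2) (c : Z2) (a : ℕ) (v : Z2) :
    Prop :=
  ∃ x ∈ S, ∃ (p : lattice.Walk x y) (hv : v ∈ p.support), IsGeoU t U p ∧ v ≠ y ∧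
    (∀ z ∈ (p.takeUntil v hv).support, a < supDist c z) ∧ supDist c (nxt t U y v) ≤ a

variable {S : Finset Z2} {c : Z2} {a b K : ℕ}

lemma exists_entry (ht : ∀ e, 0 < t e) (hu : PathUnique t) {x w : Z2} (hxS : x ∈ S)
    (hx : a < supDist c x) {p : lattice.Walk x y} (h : IsGeoU t U p) (hw : w ∈ p.support)
    (hwa : supDist c w ≤ a) :
    ∃ v ∈ p.support, IsEntry t U y S c a v ∧ pot t U y w < pot t U y v := by
  classical
  obtain ⟨e, he, hmax⟩ := (p.support.toFinset.filter fun z => supDist c z ≤ a)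
    |>.exists_max_image (pot t U y) ⟨w, by simp [hw, hwa]⟩
  simp only [Finset.mem_filter, List.mem_toFinset] at he hmax
  obtain ⟨v, hv, hvy, hev, hnx, -⟩ :=
    exists_pred ht hu h he.1 fun e' => by subst e'; omega
  refine ⟨v, hv, ⟨x, hxS, p, hv, h, hvy, fun z hz => ?_, hnx ▸ he.2⟩,
    (hmax w ⟨hw, hwa⟩).trans_lt hev⟩
  by_contra hc
  push Not at hc
  have h1 := pot_take ht h hv hz
  have h2 := hmax z ⟨p.support_takeUntil_subset_support hv hz, hc⟩
  linarith

/-- Different entries have disjoint prefixes. -/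
lemma entry_eq (ht : ∀ e, 0 < t e) (hu : PathUnique t) {x x' v v' z : Z2}
    {p : lattice.Walk x y} {p' : lattice.Walk x' y} (h : IsGeoU t U p) (h' : IsGeoU t U p')
    {hv : v ∈ p.support} {hv' : v' ∈ p'.support}
    (hd : ∀ u ∈ (p.takeUntil v hv).support, a < supDist c u)
    (hd' : ∀ u ∈ (p'.takeUntil v' hv').support, a < supDist c u)
    (hn : supDist c (nxt t U y v) ≤ a) (hn' : supDist c (nxt t U y v') ≤ a)
    (hvy : v ≠ y) (hvy' : v' ≠ y)
    (hz : z ∈ (p.takeUntil v hv).support) (hz' : z ∈ (p'.takeUntil v' hv').support) : v = v' := by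
  have h0 : ∀ e, 0 ≤ t e := fun e => (ht e).le
  wlog hle : pot t U y v' ≤ pot t U y v generalizing x x' v v'
  · exact (this h' h hd' hd hn' hn hvy' hvy hz' hz (le_of_not_ge hle)).symm
  by_contra hne
  have hzp := p.support_takeUntil_subset_support hv hz
  have hzp' := p'.support_takeUntil_subset_support hv' hz'
  have hvd := mem_drop_of_pot_le ht h hzp hv (pot_take ht h hv hz)
  have hvp' : v ∈ p'.support := p'.support_dropUntil_subset_support hzp'
    ((h.right h0 hzp).unique hu (h'.right h0 hzp') ▸ hvd)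
  obtain ⟨h1, -, -, h4⟩ := nxt_spec' ht hu h' hvp' hvy
  have hlt : pot t U y v' < pot t U y v :=
    lt_of_le_of_ne hle fun e => hne (inj_pot ht h' hvp' hv' e).symm
  have := hd' _ (mem_take_of_pot_le ht h' hv' h1 (h4 v' hv' hlt))
  omega

/-- The square of radius `r` about `c`. -/
def sqBox (c : Z2) (r : ℕ) : Finset Z2 :=
  Finset.Icc (c.1 - r) (c.1 + r) ×ˢ Finset.Icc (c.2 - r) (c.2 + r)

lemma mem_sqBox {c v : Z2} {r : ℕ} : v ∈ sqBox c r ↔ supDist c v ≤ r := by
  simp only [sqBox, Finset.mem_product, Finset.mem_Icc, supDist]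
  omega

lemma card_sqBox (c : Z2) (r : ℕ) : (sqBox c r).card = (2 * r + 1) * (2 * r + 1) := by
  simp only [sqBox, Finset.card_product, Int.card_Icc]
  congr 1 <;> omega

/-- The edges with an end in the square of radius `r` about `c`. -/
def edgeBox (c : Z2) (r : ℕ) : Finset (Sym2 Z2) :=
  (sqBox c r).biUnion fun v => (nbrs v).image fun w => s(v, w)

lemma card_edgeBox_le (c : Z2) (r : ℕ) : (edgeBox c r).card ≤ 4 * (sqBox c r).card := by
  refine Finset.card_biUnion_le.trans ((Finset.sum_le_sum fun v _ =>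
    Finset.card_image_le.trans (card_nbrs v)).trans ?_)
  simp [mul_comm]

lemma mk_mem_edgeBox {c u v : Z2} {r : ℕ} (h : lattice.Adj u v) (hu : supDist c u ≤ r) :
    s(u, v) ∈ edgeBox c r :=
  Finset.mem_biUnion.2 ⟨u, mem_sqBox.2 hu, Finset.mem_image.2 ⟨v, mem_nbrs h, rfl⟩⟩

/-- Branch vertices in a box are at most as many as the entries. -/
theorem card_branch_le_entries (ht : ∀ e, 0 < t e) (hu : PathUnique t)
    (hS : ∀ x ∈ S, a < supDist c x) [DecidablePred (IsBr t U y S)]
    [DecidablePred (IsEntry t U y S c a)] :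
    ((sqBox c a).filter (IsBr t U y S)).card ≤
      ((sqBox c (a + 1)).filter (IsEntry t U y S c a)).card := by
  classical
  set P := (sqBox c (a + 1)).filter (IsEntry t U y S c a) with hP
  set B := (sqBox c a).filter (IsBr t U y S) with hB
  have hmemP : ∀ v, IsEntry t U y S c a v → v ∈ P := by
    intro v hv
    refine Finset.mem_filter.2 ⟨mem_sqBox.2 ?_, hv⟩
    obtain ⟨x, -, p, hvp, h, hvy, -, hn⟩ := hv
    have := supDist_step (z := c) (nxt_spec' ht hu h hvp hvy).2.2.1.symm
    omega
  set geoSup : Z2 → Finset Z2 := fun v =>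
    if h : ∃ q : lattice.Walk v y, IsGeoU t U q then h.choose.support.toFinset else ∅ with hgs
  have hmem : ∀ (x v : Z2) (p : lattice.Walk x y) (hv : v ∈ p.support), IsGeoU t U p →
      ∀ z, z ∈ geoSup v ↔ z ∈ (p.dropUntil v hv).support := by
    intro x v p hv h z
    have hd := h.right (fun e => (ht e).le) hv
    have hex : ∃ q : lattice.Walk v y, IsGeoU t U q := ⟨_, hd⟩
    rw [hgs]
    dsimp only
    rw [dif_pos hex, hex.choose_spec.unique hu hd, List.mem_toFinset]
  set F := P.biUnion geoSup with hF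
  set D := F.erase y with hD
  have hmaps : ∀ u ∈ D, nxt t U y u ∈ F := by
    intro u huD
    obtain ⟨huy, huF⟩ := Finset.mem_erase.1 huD
    obtain ⟨v, hvP, huv⟩ := Finset.mem_biUnion.1 huF
    obtain ⟨x, -, p, hvp, h, -, -, -⟩ := (Finset.mem_filter.1 hvP).2
    rw [hmem x v p hvp h] at huv
    refine Finset.mem_biUnion.2 ⟨v, hvP, (hmem x v p hvp h _).2 ?_⟩
    exact (nxt_spec' ht hu (h.right (fun e => (ht e).le) hvp) huv huy).1
  -- a branch vertex has two preimages
  have htwo : ∀ w ∈ B, w ∈ F ∧ 2 ≤ (D.filter fun u => nxt t U y u = w).card := by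
    intro w hwB
    obtain ⟨hwa, x, hx, x', hx', p, p', hw, hw', h, h', hsep⟩ := Finset.mem_filter.1 hwB
    rw [mem_sqBox] at hwa
    have key : ∀ (x : Z2) (_ : x ∈ S) (p : lattice.Walk x y) (hw : w ∈ p.support), IsGeoU t U p →
        ∃ u ∈ (p.takeUntil w hw).support, u ≠ w ∧ u ∈ D ∧ nxt t U y u = w := by
      intro x hx p hw h
      have hxd := hS x hx
      have hne : x ≠ w := fun e => by subst e; omega
      obtain ⟨u, hup, huy, hlt, hn, hmin⟩ := exists_pred ht hu h hw hne
      obtain ⟨v, hvp, hve, hvlt⟩ := exists_entry ht hu hx hxd h hw hwa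
      refine ⟨u, mem_take_of_pot_le ht h hw hup hlt.le, fun e => by subst e; exact lt_irrefl _ hlt,
        Finset.mem_erase.2 ⟨huy, Finset.mem_biUnion.2 ⟨v, hmemP v hve,
          (hmem x v p hvp h u).2 (mem_drop_of_pot_le ht h hvp hup (hmin v hvp hvlt))⟩⟩, hn⟩
    obtain ⟨u, hut, hune, huD, hun⟩ := key x hx p hw h
    obtain ⟨u', hut', hune', huD', hun'⟩ := key x' hx' p' hw' h'
    refine ⟨hun ▸ hmaps u huD, ?_⟩
    calc 2 = ({u, u'} : Finset Z2).card :=
          (Finset.card_pair fun (e : u = u') => hune (hsep u hut (by rw [e]; exact hut'))).symm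
      _ ≤ _ := Finset.card_le_card fun z hz => by
          rcases Finset.mem_insert.1 hz with rfl | hz
          · exact Finset.mem_filter.2 ⟨huD, hun⟩
          · rw [Finset.mem_singleton.1 hz]; exact Finset.mem_filter.2 ⟨huD', hun'⟩
  -- a tree vertex which is not an entry has a preimage
  have hone : ∀ u ∈ F, u ∉ P → 1 ≤ (D.filter fun z => nxt t U y z = u).card := by
    intro u huF huP
    obtain ⟨v, hvP, huv⟩ := Finset.mem_biUnion.1 huF
    obtain ⟨x, -, p, hvp, h, -, -, -⟩ := (Finset.mem_filter.1 hvP).2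
    rw [hmem x v p hvp h] at huv
    have hne : v ≠ u := fun e => huP (e ▸ hvP)
    obtain ⟨z, hz, hzy, -, hzn, -⟩ :=
      exists_pred ht hu (h.right (fun e => (ht e).le) hvp) huv hne
    refine Finset.card_pos.2 ⟨z, Finset.mem_filter.2 ⟨Finset.mem_erase.2
      ⟨hzy, Finset.mem_biUnion.2 ⟨v, hvP, (hmem x v p hvp h z).2 hz⟩⟩, hzn⟩⟩
  have hdisj : ∀ w ∈ B, w ∉ P := by
    intro w hwB hwP
    obtain ⟨x, -, p, hvp, -, -, hpre, -⟩ := (Finset.mem_filter.1 hwP).2
    have := hpre w (Walk.end_mem_support _)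
    have := mem_sqBox.1 (Finset.mem_filter.1 hwB).1
    omega
  have hsum : ∑ w ∈ F, ((if w ∈ B then 1 else 0) + 1) ≤
      ∑ w ∈ F, ((D.filter fun u => nxt t U y u = w).card + (if w ∈ P then 1 else 0)) := by
    refine Finset.sum_le_sum fun w hwF => ?_
    by_cases hwB : w ∈ B
    · simp only [hwB, hdisj w hwB, if_true, if_false]
      have := (htwo w hwB).2
      omega
    · by_cases hwP : w ∈ P
      · simp [hwB, hwP]
      · simp only [hwB, hwP, if_false]
        have := hone w hwF hwP
        omega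
  rw [Finset.sum_add_distrib, Finset.sum_add_distrib, Finset.sum_boole, Finset.sum_boole,
    ← Finset.card_eq_sum_card_fiberwise hmaps] at hsum
  have e1 : F.filter (fun w => w ∈ B) = B := by
    rw [Finset.filter_mem_eq_inter]
    exact Finset.inter_eq_right.2 fun w hw => (htwo w hw).1
  have e2 : (F.filter fun w => w ∈ P).card ≤ P.card :=
    Finset.card_le_card fun w hw => (Finset.mem_filter.1 hw).2
  have e3 : D.card ≤ F.card := Finset.card_le_card (Finset.erase_subset y F)
  simp only [Finset.sum_const, smul_eq_mul, mul_one, Nat.cast_id, e1] at hsum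
  omega

/-- The level of an edge is `r`: its ends are at distances `r` and `r - 1` from `c`. -/
def IsLevel (c : Z2) (r : ℕ) (f : Sym2 Z2) : Prop :=
  ∃ z z', f = s(z, z') ∧ lattice.Adj z z' ∧ supDist c z = r ∧ supDist c z' + 1 = r

lemma exists_level {r : ℕ} {x v : Z2} (p : lattice.Walk x v) (hx : r ≤ supDist c x)
    (hv : supDist c v < r) : ∃ f ∈ p.edges, IsLevel c r f := by
  induction p with
  | nil => omega
  | @cons x z v h p ih =>
    by_cases hz : r ≤ supDist c z
    · obtain ⟨f, hf, hl⟩ := ih hz hv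
      exact ⟨f, by simp [hf], hl⟩
    · have := supDist_step (z := c) h.symm
      exact ⟨s(x, z), by simp, x, z, rfl, h, by omega, by omega⟩

lemma IsLevel.eq {r r' : ℕ} {f : Sym2 Z2} (h : IsLevel c r f) (h' : IsLevel c r' f) : r = r' := by
  obtain ⟨z, z', rfl, -, h1, h2⟩ := h
  obtain ⟨w, w', he, -, h3, h4⟩ := h'
  rcases Sym2.eq_iff.1 he with ⟨rfl, rfl⟩ | ⟨rfl, rfl⟩ <;> omega

lemma card_separated_le {r : ℕ} (Z : Finset Z2) (hZ : ∀ z ∈ Z, supDist c z = r)
    (hsep : ∀ z ∈ Z, ∀ w ∈ Z, supDist z w ≤ K → z = w) :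
    Z.card ≤ 4 * (2 * r / (K + 1) + 1) := by
  classical
  set φ : Z2 → Fin 4 × ℕ := fun z =>
    if z.1 = c.1 - r then (0, ((z.2 - (c.2 - r)).toNat) / (K + 1))
    else if z.1 = c.1 + r then (1, ((z.2 - (c.2 - r)).toNat) / (K + 1))
    else if z.2 = c.2 - r then (2, ((z.1 - (c.1 - r)).toNat) / (K + 1))
    else (3, ((z.1 - (c.1 - r)).toNat) / (K + 1)) with hφ
  have hnear : ∀ i j : ℕ, i / (K + 1) = j / (K + 1) → i ≤ j + K ∧ j ≤ i + K := by
    intro i j h
    have h1 := Nat.div_add_mod i (K + 1)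
    have h2 := Nat.div_add_mod j (K + 1)
    have h3 := Nat.mod_lt i (show 0 < K + 1 by omega)
    have h4 := Nat.mod_lt j (show 0 < K + 1 by omega)
    rw [h] at h1
    omega
  have h := Finset.card_le_card_of_injOn (s := Z)
    (t := (Finset.univ : Finset (Fin 4)) ×ˢ Finset.range (2 * r / (K + 1) + 1)) φ
    (fun z hz => by
      have hd := hZ z hz
      simp only [supDist] at hd
      simp only [hφ, Finset.mem_coe, Finset.mem_product, Finset.mem_univ, true_and,
        Finset.mem_range, Nat.lt_succ_iff]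
      split_ifs <;> exact Nat.div_le_div_right (by omega))
    (fun z hz w hw he => hsep z hz w hw (by
      have hdz := hZ z (Finset.mem_coe.1 hz)
      have hdw := hZ w (Finset.mem_coe.1 hw)
      simp only [supDist] at hdz hdw ⊢
      simp only [hφ] at he
      split_ifs at he <;> simp only [Prod.mk.injEq, Fin.reduceEq, false_and] at he <;>
        first
          | contradiction
          | (obtain ⟨-, he⟩ := he
             have := hnear _ _ he
             omega)))
  simpa using h

/-- Entries times levels: isolated edges are far apart on each level. -/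
theorem card_entries_mul_le (ht : ∀ e, 0 < t e) (hu : PathUnique t)
    (hS : ∀ x ∈ S, b ≤ supDist c x) [DecidablePred (NonIso t U y S K)]
    [DecidablePred (IsEntry t U y S c a)] :
    ((sqBox c (a + 1)).filter (IsEntry t U y S c a)).card * (b - (a + 1)) ≤
      (b - (a + 1)) * (4 * (2 * b / (K + 1) + 1)) +
        ((edgeBox c b).filter (NonIso t U y S K)).card := by
  classical
  set P := (sqBox c (a + 1)).filter (IsEntry t U y S c a) with hP
  set N := (edgeBox c b).filter (NonIso t U y S K) with hN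
  have hlev : ∀ r ∈ Finset.Ioc (a + 1) b,
      P.card ≤ 4 * (2 * b / (K + 1) + 1) + (N.filter (IsLevel c r)).card := by
    intro r hr
    rw [Finset.mem_Ioc] at hr
    have hdata : ∀ v ∈ P, ∃ x ∈ S, ∃ (p : lattice.Walk x y) (hv : v ∈ p.support) (z : Z2)
        (f : Sym2 Z2), IsGeoU t U p ∧ v ≠ y ∧
          (∀ u ∈ (p.takeUntil v hv).support, a < supDist c u) ∧ supDist c (nxt t U y v) ≤ a ∧
          f ∈ (p.takeUntil v hv).edges ∧ IsLevel c r f ∧ f ∈ edgeBox c b ∧ z ∈ f ∧
          supDist c z = r := by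
      intro v hv
      obtain ⟨hvb, x, hx, p, hvp, h, hvy, hpre, hn⟩ := Finset.mem_filter.1 hv
      have := mem_sqBox.1 hvb
      obtain ⟨f, hf, hl⟩ :=
        exists_level (p.takeUntil v hvp) (hr.2.trans (hS x hx)) (show supDist c v < r by omega)
      obtain ⟨z, z', rfl, hadj, hz, hz'⟩ := hl
      exact ⟨x, hx, p, hvp, z, _, h, hvy, hpre, hn, hf, ⟨z, z', rfl, hadj, hz, hz'⟩,
        mk_mem_edgeBox hadj (hz.le.trans hr.2), Sym2.mem_mk_left z z', hz⟩
    choose xf hxf pf hvf zf ff hgeo hvy hpre hnxt hfe hlevel hbox hzf hzr using hdata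
    have hsame : ∀ v (hv : v ∈ P) v' (hv' : v' ∈ P),
        (∃ u, u ∈ ((pf v hv).takeUntil v (hvf v hv)).support ∧
          u ∈ ((pf v' hv').takeUntil v' (hvf v' hv')).support) → v = v' := by
      rintro v hv v' hv' ⟨u, h1, h2⟩
      exact entry_eq ht hu (hgeo v hv) (hgeo v' hv') (hpre v hv) (hpre v' hv') (hnxt v hv)
        (hnxt v' hv') (hvy v hv) (hvy v' hv') h1 h2
    set A := P.attach.filter fun v => NonIso t U y S K (ff v.1 v.2) with hA
    set B := P.attach.filter fun v => ¬NonIso t U y S K (ff v.1 v.2) with hB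
    have h1 : A.card ≤ (N.filter (IsLevel c r)).card := by
      refine Finset.card_le_card_of_injOn (fun v => ff v.1 v.2) (fun v hv => ?_)
        fun v _ v' _ he => ?_
      · exact Finset.mem_filter.2 ⟨Finset.mem_filter.2 ⟨hbox v.1 v.2, (Finset.mem_filter.1
          (Finset.mem_coe.1 hv)).2⟩, hlevel v.1 v.2⟩
      · have h3 := hfe v.1 v.2
        have h4 := hfe v'.1 v'.2
        simp only at he
        rw [← he] at h4
        refine Subtype.ext (hsame v.1 v.2 v'.1 v'.2 ⟨zf v.1 v.2, ?_, ?_⟩)
        exacts [Branch.mem_support_of_mem _ h3 (hzf v.1 v.2),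
          Branch.mem_support_of_mem _ h4 (hzf v.1 v.2)]
    have h2 : B.card ≤ 4 * (2 * b / (K + 1) + 1) := by
      have hinj : ∀ v ∈ B, ∀ v' ∈ B, supDist (zf v.1 v.2) (zf v'.1 v'.2) ≤ K → v = v' := by
        intro v hv v' hv' hd
        by_contra hne
        have hne' : v.1 ≠ v'.1 := fun e => hne (Subtype.ext e)
        have key : ∀ (w : {x // x ∈ P}) (w' : {x // x ∈ P}), w ∈ B → w' ∈ B → w.1 ≠ w'.1 →
            supDist (zf w.1 w.2) (zf w'.1 w'.2) ≤ K →
            pot t U y (zf w.1 w.2) < pot t U y (zf w'.1 w'.2) := by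
          intro w w' hw _ hne hd
          have hiso := (Finset.mem_filter.1 hw).2
          have hz := Branch.mem_support_of_mem _ (hfe w.1 w.2) (hzf w.1 w.2)
          have hz' := Branch.mem_support_of_mem _ (hfe w'.1 w'.2) (hzf w'.1 w'.2)
          have hz'p := (pf w'.1 w'.2).support_takeUntil_subset_support (hvf w'.1 w'.2) hz'
          have hf' : ff w.1 w.2 ∈ (pf w'.1 w'.2).edges := by
            by_contra hf
            exact hiso ⟨_, hxf w.1 w.2, pf w.1 w.2, hgeo w.1 w.2,
              (pf w.1 w.2).edges_takeUntil_subset_edges _ (hfe w.1 w.2), _, hxf w'.1 w'.2,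
              pf w'.1 w'.2, hgeo w'.1 w'.2, hf, _, hzf w.1 w.2, _, hz'p, hd⟩
          have hzp := Branch.mem_support_of_mem _ hf' (hzf w.1 w.2)
          refine lt_of_lt_of_le ?_ (pot_take ht (hgeo w'.1 w'.2) (hvf w'.1 w'.2) hz')
          by_contra! hle
          exact hne (hsame w.1 w.2 w'.1 w'.2 ⟨_, hz,
            mem_take_of_pot_le ht (hgeo w'.1 w'.2) _ hzp hle⟩)
        have a1 := key v v' hv hv' hne' hd
        have a2 := key v' v hv' hv (Ne.symm hne') (by
          simp only [supDist] at hd ⊢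
          omega)
        linarith
      have hrb : 4 * (2 * r / (K + 1) + 1) ≤ 4 * (2 * b / (K + 1) + 1) := by
        have := Nat.div_le_div_right (c := K + 1) (show 2 * r ≤ 2 * b by omega)
        omega
      refine le_trans ?_ ((card_separated_le (c := c) (B.image fun v => zf v.1 v.2) (fun z hz => ?_)
        (fun z hz w hw hd => ?_)).trans hrb)
      · rw [Finset.card_image_of_injOn fun v hv v' hv' he => hinj v hv v' hv' (by
          rw [he]; simp [supDist])]
      · obtain ⟨v, -, rfl⟩ := Finset.mem_image.1 hz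
        exact hzr v.1 v.2
      · obtain ⟨v, hv, rfl⟩ := Finset.mem_image.1 hz
        obtain ⟨v', hv', rfl⟩ := Finset.mem_image.1 hw
        rw [hinj v hv v' hv' hd]
    have h3 : A.card + B.card = P.card := by
      rw [hA, hB, Finset.card_filter_add_card_filter_not, Finset.card_attach]
    omega
  have hsum := Finset.sum_le_sum hlev
  rw [Finset.sum_add_distrib, Finset.sum_const, Finset.sum_const, Nat.card_Ioc, smul_eq_mul,
    smul_eq_mul] at hsum
  have hN' : ∑ r ∈ Finset.Ioc (a + 1) b, (N.filter (IsLevel c r)).card ≤ N.card := by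
    rw [← Finset.card_biUnion]
    · exact Finset.card_le_card (Finset.biUnion_subset.2 fun r _ => Finset.filter_subset _ _)
    · intro r _ r' _ hne
      exact Finset.disjoint_left.2 fun f h1 h2 =>
        hne ((Finset.mem_filter.1 h1).2.eq (Finset.mem_filter.1 h2).2)
  calc P.card * (b - (a + 1)) = (b - (a + 1)) * P.card := mul_comm _ _
    _ ≤ _ := hsum.trans (Nat.add_le_add_left hN' _)

/-- **A2, deterministic form.** -/
theorem card_branch_mul_le (ht : ∀ e, 0 < t e) (hu : PathUnique t)
    (hS : ∀ x ∈ S, b ≤ supDist c x) (hab : a < b) [DecidablePred (IsBr t U y S)]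
    [DecidablePred (NonIso t U y S K)] :
    ((sqBox c a).filter (IsBr t U y S)).card * (b - (a + 1)) ≤
      (b - (a + 1)) * (4 * (2 * b / (K + 1) + 1)) +
        ((edgeBox c b).filter (NonIso t U y S K)).card := by
  classical
  exact (Nat.mul_le_mul_right _ (card_branch_le_entries ht hu fun x hx =>
    hab.trans_le (hS x hx))).trans (card_entries_mul_le ht hu hS)

end Tree

end

end Vale.P158
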