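import Vale.Agent.P158.Peierls

/-!
# P158: short intervals have small mass, uniformly, and the thin band of one weight
-/

open MeasureTheory ProbabilityTheory Filter Topology
open scoped ENNReal

namespace Vale.P158

noncomputable section

/-- An atomless law gives little mass to every short interval. -/
theorem exists_window_mass (μ : Measure ℝ) [IsProbabilityMeasure μ] [NullSingletonClass μ]
    {d : ℝ} (hd : 0 < d) : ∃ g : ℝ, 0 < g ∧ ∀ s, μ (Set.Icc s (s + g)) ≤ ENNReal.ofReal d := by
  set F : ℝ → ℝ := fun x => cdf μ x with hF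
  have hmono : Monotone F := monotone_cdf μ
  have hcont : Continuous F := by
    refine continuous_iff_continuousAt.2 fun x => ?_
    rw [(monotone_cdf μ).continuousAt_iff_leftLim_eq_rightLim]
    have h1 := (cdf μ).measure_singleton x
    rw [measure_cdf, measure_singleton] at h1
    have h2 : cdf μ x - Function.leftLim (cdf μ) x ≤ 0 := ENNReal.ofReal_eq_zero.1 h1.symm
    have h3 := (monotone_cdf μ).leftLim_le (le_refl x)
    rw [StieltjesFunction.rightLim_eq]
    linarith
  obtain ⟨l, hl⟩ := ((tendsto_cdf_atBot μ).eventually (gt_mem_nhds hd)).exists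
  obtain ⟨u, hu⟩ := ((tendsto_cdf_atTop μ).eventually (lt_mem_nhds (sub_lt_self 1 hd))).exists
  have huc := (isCompact_Icc (a := l - 1) (b := u + 1)).uniformContinuousOn_of_continuous
    hcont.continuousOn
  rw [Metric.uniformContinuousOn_iff] at huc
  obtain ⟨δ, hδ, hδ'⟩ := huc d hd
  refine ⟨min (δ / 2) 1, lt_min (by linarith) one_pos, fun s => ?_⟩
  set g := min (δ / 2) 1
  have hg : 0 < g := lt_min (by linarith) one_pos
  have hdiff : F (s + g) - F s ≤ d := by
    by_cases h1 : s + g ≤ l
    · have := hmono h1
      have := cdf_nonneg μ s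
      simp only [hF] at *
      linarith
    by_cases h2 : u ≤ s
    · have := hmono h2
      have := cdf_le_one μ (s + g)
      simp only [hF] at *
      linarith
    have hg1 : g ≤ 1 := min_le_right _ _
    have hg2 : g ≤ δ / 2 := min_le_left _ _
    have := hδ' (s + g) ⟨by linarith, by linarith⟩ s ⟨by linarith, by linarith⟩
      (by rw [Real.dist_eq, abs_of_nonneg (by linarith)]; linarith)
    rw [Real.dist_eq] at this
    exact (le_abs_self _).trans this.le
  have h3 : μ (Set.Icc s (s + g)) = μ (Set.Ioc s (s + g)) := (measure_congr Ioc_ae_eq_Icc).symm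
  rw [h3]
  nth_rewrite 1 [← measure_cdf μ]
  rw [StieltjesFunction.measure_Ioc]
  exact ENNReal.ofReal_le_ofReal hdiff

variable {ι : Type*} (μ : Measure ℝ) [IsProbabilityMeasure μ]

/-- An event whose values of one weight, the others fixed, span less than `w` is as unlikely as an
interval of length `w`. -/
theorem measure_thin_le {f : ι} {A : Set (ι → ℝ)} (hA : MeasurableSet A) {w : ℝ} {d : ℝ≥0∞}
    (hd : ∀ s, μ (Set.Icc s (s + w)) ≤ d)
    (h : ∀ t t', t ∈ A → t' ∈ A → (∀ i, i ≠ f → t i = t' i) → t f ≤ t' f → t' f ≤ t f + w) :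
    iidLaw ι μ A ≤ d := by
  classical
  rw [← (measurePreserving_resample μ {f}).measure_preimage hA.nullMeasurableSet,
    Measure.prod_apply ((measurable_resample _) hA)]
  refine (lintegral_mono (g := fun _ => d) fun ω => ?_).trans (by simp)
  set T : Set ℝ := {s | Function.update ω f s ∈ A} with hT
  have hpre : Prod.mk ω ⁻¹' (resample {f} ⁻¹' A) = (fun ξ : ι → ℝ => ξ f) ⁻¹' T := by
    ext ξ
    have : resample {f} (ω, ξ) = Function.update ω f (ξ f) := by
      funext i
      by_cases hi : i = f
      · subst hi; simp [resample]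
      · simp [resample, hi]
    simp [hT, this]
  have hTm : MeasurableSet T := hA.preimage (measurable_update ω)
  rw [hpre, ← Measure.map_apply (measurable_pi_apply f) hTm, iidLaw, Measure.infinitePi_map_eval]
  rcases T.eq_empty_or_nonempty with hT0 | hT0
  · simp [hT0]
  have hspan : ∀ s ∈ T, ∀ s' ∈ T, s' ≤ s + w := by
    intro s hs s' hs'
    rcases le_total s s' with hle | hle
    · have := h _ _ hs hs' (fun i hi => by simp [hi]) (by simpa using hle)
      simpa using this
    · have := h _ _ hs hs (fun _ _ => rfl) le_rfl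
      simp only [Function.update_self] at this
      linarith
  obtain ⟨s₀, hs₀⟩ := hT0
  have hbdd : BddBelow T := ⟨s₀ - w, fun s hs => by linarith [hspan s hs s₀ hs₀]⟩
  refine (measure_mono fun s hs => ?_).trans (hd (sInf T))
  refine ⟨csInf_le hbdd hs, ?_⟩
  have : s - w ≤ sInf T := le_csInf ⟨s₀, hs₀⟩ fun r hr => by linarith [hspan r hr s hs]
  linarith

end

end Vale.P158
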