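import Vale.Agent.P158.Chain.Defs
import Vale.Agent.P158.Branch.Tree
import Vale.Agent.P158.Branch.Window
import Vale.Agent.P158.Meas

/-!
# P158, A2: branch points of one tree are rare

`branchRare_of_oneEdge`: if the one-edge lemma A1 (`OneEdgeBound`) holds then `Chain.BranchRare`.
A tree edge either has all its margins in a thin band, which is unlikely as the margins move
linearly with its weight, or A1 applies to it, or it is isolated and `Tree.card_branch_mul_le`
counts it.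
-/

namespace Vale.P158

open MeasureTheory SimpleGraph Finset
open Vale.Agent.P158.Crossing (Rect)
open scoped ENNReal NNReal

noncomputable section

/-- The hypothesis of A1 at the edge `f`: a tree geodesic through `f` whose margin against the
paths avoiding `f` is at least `g`, and a tree geodesic nearby avoiding `f`. -/
def FarPair (t : Sym2 Z2 → ℝ) (M : ℕ) (y : Z2) (K : ℕ) (g : ℝ) (f : Sym2 Z2) : Prop :=
  ∃ (x : Z2) (p : lattice.Walk y x), (Chain.sq M).Bdry x ∧ IsGeoU t (Chain.box M) p ∧ f ∈ p.edges ∧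
    (∀ q : lattice.Walk y x, q.IsPath → (∀ v ∈ q.support, v ∈ Chain.box M) → f ∉ q.edges →
      wlen t p + g ≤ wlen t q) ∧
    ∃ (x' : Z2) (p' : lattice.Walk y x'), (Chain.sq M).Bdry x' ∧ IsGeoU t (Chain.box M) p' ∧ f ∉ p'.edges ∧
      ∃ u ∈ f, ∃ v ∈ p'.support, supDist u v ≤ K

/-- The one-edge lemma A1. -/
def OneEdgeBound (μ : Measure ℝ) : Prop :=
  ∀ g : ℝ, 0 < g → ∀ η : ℝ, 0 < η → ∀ K : ℕ, ∃ (C : ℝ≥0) (L : ℕ), ∀ (M : ℕ) (y z z' : Z2),
    (Chain.sq M).Bdry y → lattice.Adj z z' → supDist 0 z + L ≤ M →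
      iidLaw (Sym2 Z2) μ {t | FarPair t M y K g s(z, z')} ≤
        ENNReal.ofReal η + C * ∑ v ∈ Chain.ball z L, iidLaw (Sym2 Z2) μ {t | Chain.IsBranch t (Chain.sq M) y v}

namespace A2

variable {t : Sym2 Z2 → ℝ}

lemma bdry_iff {M : ℕ} {w : Z2} : (Chain.sq M).Bdry w ↔ supDist 0 w = M + 1 := by
  simp only [Rect.Bdry, Rect.Mem, Chain.sq, supDist, Prod.fst_zero, Prod.snd_zero]
  omega

lemma mem_iff {M : ℕ} {w : Z2} : w ∈ Chain.box M ↔ supDist 0 w ≤ M + 1 := by
  simp only [Chain.box, Set.mem_ofPred_eq, Rect.Mem, Chain.sq, supDist, Prod.fst_zero, Prod.snd_zero]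
  omega

/-- The boundary points of `Chain.sq M`. -/
def leaves (M : ℕ) : Finset Z2 := (Chain.ball 0 (M + 1)).filter fun w => supDist 0 w = M + 1

lemma mem_leaves {M : ℕ} {w : Z2} : w ∈ leaves M ↔ (Chain.sq M).Bdry w := by
  simp only [leaves, Finset.mem_filter, Chain.mem_ball, bdry_iff]
  omega

lemma card_leaves_le (M : ℕ) : (leaves M).card ≤ 4 * (2 * (M + 1) + 1) := by
  simpa using Tree.card_separated_le (K := 0) (c := 0) (r := M + 1) (leaves M)
    (fun z hz => bdry_iff.1 (mem_leaves.1 hz)) fun z _ w _ h => by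
      simp only [supDist, Nat.le_zero] at h
      exact Prod.ext (by omega) (by omega)

/-- Neighbours are adjacent. -/
lemma adj_of_mem_nbrs {z w : Z2} (h : w ∈ nbrs z) : lattice.Adj z w := by
  simp only [nbrs, Finset.mem_insert, Finset.mem_singleton] at h
  show |_ - _| + |_ - _| = (1 : ℤ)
  rcases h with rfl | rfl | rfl | rfl <;> simp

lemma isBr_of_isBranch (ht : ∀ e, 0 < t e) (hu : PathUnique t) {M : ℕ} {y v : Z2}
    (h : Chain.IsBranch t (Chain.sq M) y v) :
    Tree.IsBr t (Chain.box M) y (leaves M) v ∧ supDist 0 v ≤ M := by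
  obtain ⟨x, x', p, q, hx, hx', hgp, hgq, hv, hp, hq, hsep⟩ := h
  have h0 : ∀ e, 0 ≤ t e := fun e => (ht e).le
  have hvb : v ∈ Chain.box M := hgp.mem hp
  have hp' : v ∈ p.reverse.support := by simpa using hp
  have hq' : v ∈ q.reverse.support := by simpa using hq
  have e1 := (hgp.reverse.left h0 hp').unique hu (hgp.right h0 hp).reverse
  have e2 := (hgq.reverse.left h0 hq').unique hu (hgq.right h0 hq).reverse
  refine ⟨⟨x, mem_leaves.2 hx, x', mem_leaves.2 hx', p.reverse, q.reverse, hp', hq', hgp.reverse,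
    hgq.reverse, fun w hw hw' => hsep w ?_ ?_⟩, ?_⟩
  · rw [e1] at hw; simpa using hw
  · rw [e2] at hw'; simpa using hw'
  · rw [bdry_iff] at hv
    rw [mem_iff] at hvb
    omega

open scoped Classical in
/-- Branch points are at most as many as boundary points. -/
lemma card_isBranch_le (ht : ∀ e, 0 < t e) (hu : PathUnique t) (M : ℕ) (y : Z2) :
    ((Chain.ball 0 M).filter fun v => Chain.IsBranch t (Chain.sq M) y v).card ≤ 4 * (2 * (M + 1) + 1) := by
  refine le_trans (Finset.card_le_card (t := (Tree.sqBox 0 M).filter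
    (Tree.IsBr t (Chain.box M) y (leaves M))) fun v hv => ?_) ((Tree.card_branch_le_entries ht hu
      fun x hx => by rw [bdry_iff.1 (mem_leaves.1 hx)]; omega).trans
      (le_trans (Finset.card_le_card fun v hv => ?_) (card_leaves_le M)))
  · obtain ⟨hv1, hv2⟩ := Finset.mem_filter.1 hv
    exact Finset.mem_filter.2 ⟨Tree.mem_sqBox.2 (Chain.mem_ball.1 hv1), (isBr_of_isBranch ht hu hv2).1⟩
  · obtain ⟨hvb, x, -, p, hvp, -, -, hpre, -⟩ := Finset.mem_filter.1 hv
    have := hpre v (Walk.end_mem_support _)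
    have := Tree.mem_sqBox.1 hvb
    exact mem_leaves.2 (bdry_iff.2 (by omega))

/-- Tree edges with all margins below `g`. -/
def thin (M : ℕ) (y : Z2) (g : ℝ) (f : Sym2 Z2) : Set (Sym2 Z2 → ℝ) :=
  {t | (∃ (x : Z2) (p : lattice.Walk y x), (Chain.sq M).Bdry x ∧ IsGeoU t (Chain.box M) p ∧ f ∈ p.edges) ∧
    ∀ (x : Z2) (p : lattice.Walk y x), (Chain.sq M).Bdry x → f ∈ p.edges → IsGeoU t (Chain.box M) p →
      ∃ q : lattice.Walk y x, q.IsPath ∧ (∀ v ∈ q.support, v ∈ Chain.box M) ∧ f ∉ q.edges ∧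
        wlen t q < wlen t p + g}

lemma measurableSet_thin (M : ℕ) (y : Z2) (g : ℝ) (f : Sym2 Z2) :
    MeasurableSet (thin M y g f) := by
  have e : thin M y g f =
      (⋃ (x : Z2) (p : lattice.Walk y x) (_ : (Chain.sq M).Bdry x ∧ f ∈ p.edges),
        {t | IsGeoU t (Chain.box M) p}) ∩
      ⋂ (x : Z2) (p : lattice.Walk y x) (_ : (Chain.sq M).Bdry x ∧ f ∈ p.edges),
        ({t | IsGeoU t (Chain.box M) p}ᶜ ∪ ⋃ (q : lattice.Walk y x) (_ : q.IsPath ∧
          (∀ v ∈ q.support, v ∈ Chain.box M) ∧ f ∉ q.edges), {t | wlen t q < wlen t p + g}) := by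
    ext t
    simp only [thin, Set.mem_inter_iff, Set.mem_ofPred_eq, Set.mem_iUnion, Set.mem_iInter,
      Set.mem_union, Set.mem_compl_iff, exists_prop]
    constructor
    · rintro ⟨⟨x, p, h1, h2, h3⟩, h4⟩
      refine ⟨⟨x, p, ⟨h1, h3⟩, h2⟩, fun x p hxp => ?_⟩
      by_cases hg : IsGeoU t (Chain.box M) p
      · obtain ⟨q, a1, a2, a3, a4⟩ := h4 x p hxp.1 hxp.2 hg
        exact Or.inr ⟨q, ⟨a1, a2, a3⟩, a4⟩
      · exact Or.inl hg
    · rintro ⟨⟨x, p, ⟨h1, h3⟩, h2⟩, h4⟩
      refine ⟨⟨x, p, h1, h2, h3⟩, fun x p hx hf hg => ?_⟩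
      obtain ⟨q, ⟨a1, a2, a3⟩, a4⟩ := (h4 x p ⟨hx, hf⟩).resolve_left (fun h => h hg)
      exact ⟨q, a1, a2, a3, a4⟩
  rw [e]
  refine MeasurableSet.inter (MeasurableSet.iUnion fun x => MeasurableSet.iUnion fun p =>
    MeasurableSet.iUnion fun _ => measurableSet_isGeoU _ p) (MeasurableSet.iInter fun x =>
    MeasurableSet.iInter fun p => MeasurableSet.iInter fun _ =>
    (measurableSet_isGeoU _ p).compl.union (MeasurableSet.iUnion fun q =>
    MeasurableSet.iUnion fun _ => measurableSet_lt (by fun_prop) (by fun_prop)))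

lemma thin_span {M : ℕ} {y : Z2} {g : ℝ} {f : Sym2 Z2} {t t' : Sym2 Z2 → ℝ}
    (h : t ∈ thin M y g f) (h' : t' ∈ thin M y g f) (he : ∀ i, i ≠ f → t i = t' i)
    (hle : t f ≤ t' f) : t' f ≤ t f + g := by
  classical
  obtain ⟨⟨x, p, hx, hp, hfp⟩, -⟩ := h'
  have hw : ∀ {a b : Z2} (q : lattice.Walk a b), q.IsPath →
      wlen t' q = wlen t q + if f ∈ q.edges then t' f - t f else 0 := by
    intro a b q hq
    rw [wlen_path t hq, wlen_path t' hq, ← sub_eq_iff_eq_add', ← Finset.sum_sub_distrib]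
    have e1 : (if f ∈ q.edges then t' f - t f else 0) =
        ∑ e ∈ q.edges.toFinset, if e = f then t' e - t e else 0 := by
      simp only [Finset.sum_ite_eq', List.mem_toFinset]
    rw [e1]
    refine Finset.sum_congr rfl fun e _ => ?_
    by_cases hef : e = f
    · simp [hef]
    · simp [hef, he e hef]
  have hp' : IsGeoU t (Chain.box M) p := by
    refine ⟨hp.1, hp.2.1, fun q hq hqU => ?_⟩
    have h1 := hp.2.2 q hq hqU
    rw [hw p hp.1, hw q hq, if_pos hfp] at h1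
    split_ifs at h1 <;> linarith
  obtain ⟨q, hq, hqU, hfq, hlt⟩ := h.2 x p hx hfp hp'
  have h1 := hp.2.2 q hq hqU
  rw [hw p hp.1, hw q hq, if_pos hfp, if_neg hfq] at h1
  linarith

lemma nonIso_subset (M : ℕ) (y : Z2) (K : ℕ) (g : ℝ) (f : Sym2 Z2) :
    {t | Tree.NonIso t (Chain.box M) y (leaves M) K f} ⊆
      thin M y g f ∪ {t | FarPair t M y K g f} := by
  rintro t ⟨x, hx, p, hp, hfp, x', hx', p', hp', hfp', u, hu, v, hv, hd⟩
  by_cases hthin : t ∈ thin M y g f
  · exact Or.inl hthin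
  right
  simp only [thin, Set.mem_ofPred_eq] at hthin
  push Not at hthin
  obtain ⟨x₁, p₁, h1, h2, h3, h4⟩ :=
    hthin ⟨x, p.reverse, mem_leaves.1 hx, hp.reverse, by simpa using hfp⟩
  exact ⟨x₁, p₁, h1, h3, h2, h4, x', p'.reverse, mem_leaves.1 hx', hp'.reverse,
    by simpa using hfp', u, hu, v, by simpa using hv, hd⟩

lemma measurableSet_isBranch (M : ℕ) (y v : Z2) :
    MeasurableSet {t | Chain.IsBranch t (Chain.sq M) y v} := by
  classical
  unfold Chain.IsBranch
  simp only [Set.ofPred_exists]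
  refine MeasurableSet.iUnion fun x => MeasurableSet.iUnion fun x' => MeasurableSet.iUnion fun p =>
    MeasurableSet.iUnion fun q => ?_
  exact (MeasurableSet.const _).inter ((MeasurableSet.const _).inter
    ((measurableSet_isGeoU _ p).inter ((measurableSet_isGeoU _ q).inter (MeasurableSet.const _))))

lemma measurableSet_nonIso (M : ℕ) (y : Z2) (K : ℕ) (f : Sym2 Z2) :
    MeasurableSet {t | Tree.NonIso t (Chain.box M) y (leaves M) K f} := by
  have e : {t | Tree.NonIso t (Chain.box M) y (leaves M) K f} =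
      ⋃ (x : Z2) (p : lattice.Walk x y) (x' : Z2) (p' : lattice.Walk x' y)
        (_ : x ∈ leaves M ∧ f ∈ p.edges ∧ x' ∈ leaves M ∧ f ∉ p'.edges ∧
          ∃ u ∈ f, ∃ v ∈ p'.support, supDist u v ≤ K),
        ({t | IsGeoU t (Chain.box M) p} ∩ {t | IsGeoU t (Chain.box M) p'}) := by
    ext t
    simp only [Tree.NonIso, Set.mem_iUnion, Set.mem_inter_iff, Set.mem_ofPred_eq, exists_prop]
    constructor
    · rintro ⟨x, h1, p, h2, h3, x', h4, p', h5, h6, h7⟩
      exact ⟨x, p, x', p', ⟨h1, h3, h4, h6, h7⟩, h2, h5⟩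
    · rintro ⟨x, p, x', p', ⟨h1, h3, h4, h6, h7⟩, h2, h5⟩
      exact ⟨x, h1, p, h2, h3, x', h4, p', h5, h6, h7⟩
  rw [e]
  exact MeasurableSet.iUnion fun x => MeasurableSet.iUnion fun p => MeasurableSet.iUnion fun x' =>
    MeasurableSet.iUnion fun p' => MeasurableSet.iUnion fun _ =>
      (measurableSet_isGeoU _ p).inter (measurableSet_isGeoU _ p')


open scoped Classical in
/-- A bound between counts gives the bound between the sums of the probabilities. -/
lemma sum_real_le {α β Ω : Type*} {_ : MeasurableSpace Ω} (P : Measure Ω) [IsProbabilityMeasure P]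
    (I : Finset α) (J : Finset β) (A : α → Set Ω) (B : β → Set Ω) (hA : ∀ i, MeasurableSet (A i))
    (hB : ∀ j, MeasurableSet (B j)) (k c : ℕ)
    (h : ∀ᵐ ω ∂P, (I.filter fun i => ω ∈ A i).card * k ≤ c + (J.filter fun j => ω ∈ B j).card) :
    (k : ℝ) * ∑ i ∈ I, P.real (A i) ≤ c + ∑ j ∈ J, P.real (B j) := by
  have hi : ∀ (S : Set Ω), MeasurableSet S → Integrable (S.indicator (1 : Ω → ℝ)) P :=
    fun S hS => (integrable_const (1 : ℝ)).indicator hS
  have e1 : ∫ ω, (k : ℝ) * ∑ i ∈ I, (A i).indicator 1 ω ∂P = (k : ℝ) * ∑ i ∈ I, P.real (A i) := by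
    rw [integral_const_mul, integral_finsetSum _ fun i _ => hi _ (hA i)]
    simp only [integral_indicator_one (hA _)]
  have e2 : ∫ ω, (c : ℝ) + ∑ j ∈ J, (B j).indicator 1 ω ∂P = c + ∑ j ∈ J, P.real (B j) := by
    rw [integral_add (integrable_const _) (integrable_finsetSum _ fun j _ => hi _ (hB j)),
      integral_finsetSum _ fun j _ => hi _ (hB j)]
    simp [integral_indicator_one (hB _)]
  rw [← e1, ← e2]
  refine integral_mono_ae ((integrable_finsetSum _ fun i _ => hi _ (hA i)).const_mul _)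
    ((integrable_const _).add (integrable_finsetSum _ fun j _ => hi _ (hB j))) ?_
  filter_upwards [h] with ω hω
  simp only [Set.indicator_apply, Pi.one_apply, Finset.sum_boole]
  rw [mul_comm]
  exact_mod_cast hω

/-- Oriented edges starting in the square of radius `b`. -/
def darts (b : ℕ) : Finset (Z2 × Z2) :=
  (Tree.sqBox 0 b).biUnion fun z => (nbrs z).image (Prod.mk z)

lemma card_darts_le (b : ℕ) : (darts b).card ≤ 4 * ((2 * b + 1) * (2 * b + 1)) := by
  refine Finset.card_biUnion_le.trans ((Finset.sum_le_sum fun v _ =>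
    Finset.card_image_le.trans (card_nbrs v)).trans ?_)
  simp [Tree.card_sqBox, mul_comm]

lemma mem_darts {b : ℕ} {pr : Z2 × Z2} (h : pr ∈ darts b) :
    supDist 0 pr.1 ≤ b ∧ lattice.Adj pr.1 pr.2 := by
  obtain ⟨z, hz, h⟩ := Finset.mem_biUnion.1 h
  obtain ⟨w, hw, rfl⟩ := Finset.mem_image.1 h
  exact ⟨Tree.mem_sqBox.1 hz, adj_of_mem_nbrs hw⟩

/-- Each vertex is near few darts. -/
lemma sum_darts_ball_le {M b L : ℕ} (w : Z2 → ℝ) (hw : ∀ v, 0 ≤ w v) (hb : b + L ≤ M) :
    ∑ pr ∈ darts b, ∑ v ∈ Chain.ball pr.1 L, w v ≤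
      4 * (2 * (L : ℝ) + 1) ^ 2 * ∑ v ∈ Chain.ball 0 M, w v := by
  classical
  rw [darts, Finset.sum_biUnion]
  swap
  · intro z _ z' _ hne
    rw [Function.onFun, Finset.disjoint_left]
    intro pr h1 h2
    obtain ⟨_, _, rfl⟩ := Finset.mem_image.1 h1
    obtain ⟨_, _, e⟩ := Finset.mem_image.1 h2
    exact hne (Prod.mk.inj e).1.symm
  calc ∑ z ∈ Tree.sqBox 0 b, ∑ pr ∈ (nbrs z).image (Prod.mk z), ∑ v ∈ Chain.ball pr.1 L, w v
      ≤ ∑ z ∈ Tree.sqBox 0 b, 4 * ∑ v ∈ Chain.ball z L, w v := by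
        refine Finset.sum_le_sum fun z _ => ?_
        rw [Finset.sum_image fun _ _ _ _ e => (Prod.mk.inj e).2]
        simp only [Finset.sum_const, nsmul_eq_mul]
        exact mul_le_mul_of_nonneg_right (by exact_mod_cast card_nbrs z)
          (Finset.sum_nonneg fun _ _ => hw _)
    _ = 4 * ∑ z ∈ Tree.sqBox 0 b, ∑ v ∈ (Chain.ball 0 M).filter (· ∈ Chain.ball z L), w v := by
        rw [← Finset.mul_sum]
        refine congrArg _ (Finset.sum_congr rfl fun z hz => Finset.sum_congr ?_ fun _ _ => rfl)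
        ext v
        simp only [Finset.mem_filter, Chain.mem_ball, iff_and_self]
        rw [Tree.mem_sqBox] at hz
        simp only [supDist, Prod.fst_zero, Prod.snd_zero] at hz ⊢
        omega
    _ = 4 * ∑ v ∈ Chain.ball 0 M,
          (((Tree.sqBox 0 b).filter fun z => v ∈ Chain.ball z L).card : ℝ) * w v := by
        simp only [Finset.sum_filter]
        rw [Finset.sum_comm]
        refine congrArg _ (Finset.sum_congr rfl fun v _ => ?_)
        rw [← Finset.sum_filter, Finset.sum_const, nsmul_eq_mul]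
    _ ≤ 4 * ∑ v ∈ Chain.ball 0 M, (2 * (L : ℝ) + 1) ^ 2 * w v := by
        refine mul_le_mul_of_nonneg_left (Finset.sum_le_sum fun v _ =>
          mul_le_mul_of_nonneg_right ?_ (hw v)) (by norm_num)
        have := (Finset.card_le_card (s := (Tree.sqBox 0 b).filter fun z => v ∈ Chain.ball z L)
          (t := Tree.sqBox v L) fun z hz => by
            have := Chain.mem_ball.1 (Finset.mem_filter.1 hz).2
            rw [Tree.mem_sqBox]
            simp only [supDist] at this ⊢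
            omega).trans_eq (Tree.card_sqBox v L)
        rw [sq]
        exact_mod_cast this
    _ = _ := by rw [← Finset.mul_sum, mul_assoc]

/-- The final arithmetic of A2. -/
lemma arith {M b k L K pack : ℕ} {C : ℝ≥0} {η ε : ℝ} (hM : 16 ≤ M) (hk : M ≤ 8 * k) (hkM : k ≤ M)
    (hb : 4 * b ≤ 3 * M) (hpack : pack ≤ 4 * (2 * b / (K + 1) + 1)) (hη : η = ε / 512)
    (hK : K = ⌈96 / ε⌉₊) (hε : 0 < ε) (X : ℝ) (hX : 0 ≤ X) {N : ℝ}
    (hmain : (k : ℝ) * X ≤ (k * pack : ℕ) + N)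
    (hN : N ≤ 4 * ((2 * (b : ℝ) + 1) * (2 * b + 1)) * (2 * η) +
        C * (4 * (2 * (L : ℝ) + 1) ^ 2 * (4 * (2 * ((M : ℝ) + 1) + 1)))) :
    X ≤ ε * M + (32 + 384 * (C : ℝ) * (2 * L + 1) ^ 2) := by
  have hη0 : 0 < η := by rw [hη]; positivity
  have hM16 : (16 : ℝ) ≤ M := by exact_mod_cast hM
  have hk1 : (M : ℝ) ≤ 8 * k := by exact_mod_cast hk
  have hk2 : (k : ℝ) ≤ M := by exact_mod_cast hkM
  have hb1 : 4 * (b : ℝ) ≤ 3 * M := by exact_mod_cast hb
  have hKε : 48 / ((K : ℝ) + 1) ≤ ε / 2 := by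
    have : 96 / ε ≤ K := hK ▸ Nat.le_ceil _
    rw [div_le_iff₀ hε] at this
    rw [div_le_iff₀ (by positivity)]
    linarith
  have hpk : (pack : ℝ) ≤ 6 * M / ((K : ℝ) + 1) + 4 := by
    have h : ((2 * b / (K + 1) : ℕ) : ℝ) ≤ 2 * (b : ℝ) / ((K : ℝ) + 1) :=
      Nat.cast_div_le.trans_eq (by push_cast; ring)
    have h' : 2 * (b : ℝ) / ((K : ℝ) + 1) ≤ (3 / 2) * M / ((K : ℝ) + 1) :=
      div_le_div_of_nonneg_right (by linarith) (by positivity)
    have h'' : (pack : ℝ) ≤ 4 * (((2 * b / (K + 1) : ℕ) : ℝ) + 1) := by exact_mod_cast hpack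
    calc (pack : ℝ) ≤ 4 * ((3 / 2) * M / ((K : ℝ) + 1) + 1) := by linarith
      _ = _ := by ring
  have e1 : (M : ℝ) / 8 * X ≤ k * X := mul_le_mul_of_nonneg_right (by linarith) hX
  have e2 : ((k * pack : ℕ) : ℝ) ≤ M * (6 * M / ((K : ℝ) + 1) + 4) := by
    push_cast
    exact mul_le_mul hk2 hpk (Nat.cast_nonneg _) (by linarith)
  have e3 : 4 * ((2 * (b : ℝ) + 1) * (2 * b + 1)) * (2 * η) ≤ 32 * η * (M : ℝ) ^ 2 := by
    have : (0 : ℝ) ≤ b := Nat.cast_nonneg _
    have h : (2 * (b : ℝ) + 1) * (2 * b + 1) ≤ (2 * M) * (2 * M) :=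
      mul_le_mul (by linarith) (by linarith) (by linarith) (by linarith)
    calc 4 * ((2 * (b : ℝ) + 1) * (2 * b + 1)) * (2 * η) ≤ 4 * ((2 * M) * (2 * M)) * (2 * η) := by
          gcongr
      _ = _ := by ring
  have e4 : C * (4 * (2 * (L : ℝ) + 1) ^ 2 * (4 * (2 * ((M : ℝ) + 1) + 1))) ≤
      48 * C * (2 * (L : ℝ) + 1) ^ 2 * M := by
    have : 4 * (2 * ((M : ℝ) + 1) + 1) ≤ 12 * (M : ℝ) := by linarith
    calc _ ≤ (C : ℝ) * (4 * (2 * (L : ℝ) + 1) ^ 2 * (12 * M)) := by gcongr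
      _ = _ := by ring
  have hmain' : (M : ℝ) / 8 * X ≤ M * (6 * M / ((K : ℝ) + 1) + 4) + 32 * η * M ^ 2 +
      48 * C * (2 * (L : ℝ) + 1) ^ 2 * M := by linarith
  have : X ≤ 48 / ((K : ℝ) + 1) * M + 32 + 256 * η * M + 384 * C * (2 * (L : ℝ) + 1) ^ 2 := by
    refine le_of_mul_le_mul_left (a := (M : ℝ) / 8) (hmain'.trans_eq ?_) (by linarith)
    ring
  have : 48 / ((K : ℝ) + 1) * M ≤ ε / 2 * M := mul_le_mul_of_nonneg_right hKε (by linarith)
  have : 256 * η * (M : ℝ) = ε / 2 * M := by rw [hη]; ring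
  linarith

end A2

open A2 in
/-- **A2.** Branch points of a tree are rare, given A1. -/
theorem branchRare_of_oneEdge (μ : Measure ℝ) [IsProbabilityMeasure μ] [NullSingletonClass μ]
    (hμ : ∀ᵐ s ∂μ, 0 ≤ s) (hA1 : OneEdgeBound μ) : Chain.BranchRare μ := by
  classical
  intro ε hε
  set η : ℝ := ε / 512 with hη
  have hη0 : 0 < η := by positivity
  obtain ⟨g, hg, hgμ⟩ := exists_window_mass μ hη0
  set K : ℕ := ⌈96 / ε⌉₊ with hK
  obtain ⟨C, L, hC⟩ := hA1 g hg η hη0 K
  set M₀ : ℕ := 4 * L + 16 with hM₀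
  refine ⟨32 + 384 * (C : ℝ) * (2 * L + 1) ^ 2 + 4 * (2 * (M₀ + 1) + 1), fun M y hy => ?_⟩
  set P := iidLaw (Sym2 Z2) μ with hP
  set br : Z2 → Set (Sym2 Z2 → ℝ) := fun v => {t | Chain.IsBranch t (Chain.sq M) y v} with hbr
  have hae : ∀ᵐ t ∂P, (∀ e, 0 < t e) ∧ PathUnique t :=
    (ae_pos μ hμ).and (ae_pathUnique μ)
  have htotal : ∑ v ∈ Chain.ball 0 M, P.real (br v) ≤ 4 * (2 * ((M : ℝ) + 1) + 1) := by
    have := sum_real_le P (Chain.ball 0 M) (∅ : Finset Unit) br (fun _ => ∅)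
      (fun v => measurableSet_isBranch M y v) (fun _ => MeasurableSet.empty) 1
      (4 * (2 * (M + 1) + 1)) (by
        filter_upwards [hae] with t ht
        simpa [hbr] using card_isBranch_le ht.1 ht.2 M y)
    simpa using this
  have hsub : Chain.ball 0 (M / 2) ⊆ Chain.ball 0 M := fun v hv => by
    rw [Chain.mem_ball] at hv ⊢; omega
  set X : ℝ := ∑ v ∈ Chain.ball 0 (M / 2), P.real (br v) with hX
  have hX0 : X ≤ 4 * (2 * ((M : ℝ) + 1) + 1) :=
    (Finset.sum_le_sum_of_subset_of_nonneg hsub fun _ _ _ => measureReal_nonneg).trans htotal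
  have hsum : ∑ v ∈ Chain.ball 0 (M / 2), P (br v) = ENNReal.ofReal X := by
    rw [hX, ENNReal.ofReal_sum_of_nonneg fun _ _ => measureReal_nonneg]
    exact Finset.sum_congr rfl fun v _ => by rw [ofReal_measureReal]
  show ∑ v ∈ Chain.ball 0 (M / 2), P (br v) ≤ _
  rw [hsum]
  refine ENNReal.ofReal_le_ofReal ?_
  have hCpos : (0 : ℝ) ≤ 384 * (C : ℝ) * (2 * L + 1) ^ 2 := by positivity
  have hM0' : (0 : ℝ) ≤ M₀ := Nat.cast_nonneg _
  rcases lt_or_ge M M₀ with hM | hM
  · have : (M : ℝ) + 1 ≤ M₀ := by exact_mod_cast hM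
    have : 0 ≤ ε * M := by positivity
    linarith
  set b : ℕ := 3 * M / 4 with hb
  set a : ℕ := M / 2 with ha
  set k : ℕ := b - (a + 1) with hk
  set pack : ℕ := 4 * (2 * b / (K + 1) + 1) with hpack
  set non : Z2 × Z2 → Set (Sym2 Z2 → ℝ) :=
    fun pr => {t | Tree.NonIso t (Chain.box M) y (leaves M) K s(pr.1, pr.2)} with hnon
  have hmain : (k : ℝ) * X ≤ (k * pack : ℕ) + ∑ pr ∈ darts b, P.real (non pr) := by
    refine sum_real_le P _ _ _ _ (fun v => measurableSet_isBranch M y v)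
      (fun pr => measurableSet_nonIso M y K _) k (k * pack) ?_
    filter_upwards [hae] with t ht
    refine le_trans (Nat.mul_le_mul_right _ (Finset.card_le_card (t := (Tree.sqBox 0 a).filter
      (Tree.IsBr t (Chain.box M) y (leaves M))) fun v hv => ?_))
      ((Tree.card_branch_mul_le (K := K) ht.1 ht.2
        (fun x hx => by rw [bdry_iff.1 (mem_leaves.1 hx)]; omega) (show a < b by omega)).trans
        (Nat.add_le_add_left ?_ _))
    · obtain ⟨hv1, hv2⟩ := Finset.mem_filter.1 hv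
      exact Finset.mem_filter.2
        ⟨Tree.mem_sqBox.2 (Chain.mem_ball.1 hv1), (isBr_of_isBranch ht.1 ht.2 hv2).1⟩
    · refine (Finset.card_le_card (t := ((darts b).filter fun pr => t ∈ non pr).image
        fun pr => s(pr.1, pr.2)) fun f hf => ?_).trans Finset.card_image_le
      obtain ⟨hf1, hf2⟩ := Finset.mem_filter.1 hf
      obtain ⟨v, hv, h⟩ := Finset.mem_biUnion.1 hf1
      obtain ⟨w, hw, rfl⟩ := Finset.mem_image.1 h
      exact Finset.mem_image.2 ⟨(v, w), Finset.mem_filter.2 ⟨Finset.mem_biUnion.2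
        ⟨v, hv, Finset.mem_image.2 ⟨w, hw, rfl⟩⟩, hf2⟩, rfl⟩
  have hpair : ∀ pr ∈ darts b, P.real (non pr) ≤
      2 * η + C * ∑ v ∈ Chain.ball pr.1 L, P.real (br v) := by
    intro pr hpr
    obtain ⟨hd, hadj⟩ := mem_darts hpr
    have h1 : P (thin M y g s(pr.1, pr.2)) ≤ ENNReal.ofReal η :=
      measure_thin_le μ (measurableSet_thin ..) hgμ fun t t' a b c d => thin_span a b c d
    have h2 := hC M y pr.1 pr.2 hy hadj (by omega)
    have h3 : P (non pr) ≤ ENNReal.ofReal η + (ENNReal.ofReal η +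
        C * ∑ v ∈ Chain.ball pr.1 L, P (br v)) :=
      ((measure_mono (nonIso_subset M y K g _)).trans (measure_union_le _ _)).trans
        (add_le_add h1 h2)
    have h4 : ENNReal.ofReal η + (ENNReal.ofReal η + C * ∑ v ∈ Chain.ball pr.1 L, P (br v)) =
        ENNReal.ofReal (2 * η + C * ∑ v ∈ Chain.ball pr.1 L, P.real (br v)) := by
      rw [ENNReal.ofReal_add (by positivity) (by positivity), two_mul,
        ENNReal.ofReal_add hη0.le hη0.le, ENNReal.ofReal_mul C.coe_nonneg,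
        ENNReal.ofReal_sum_of_nonneg fun _ _ => measureReal_nonneg, ENNReal.ofReal_coe_nnreal,
        add_assoc]
      congr 3
      exact Finset.sum_congr rfl fun v _ => by rw [ofReal_measureReal]
    exact ENNReal.toReal_le_of_le_ofReal (by positivity) (h3.trans h4.le)
  have hswap := (sum_darts_ball_le (M := M) (b := b) (L := L) (fun v => P.real (br v))
    (fun _ => measureReal_nonneg) (by omega)).trans
      (mul_le_mul_of_nonneg_left htotal (by positivity))
  have hnon' : ∑ pr ∈ darts b, P.real (non pr) ≤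
      4 * ((2 * (b : ℝ) + 1) * (2 * b + 1)) * (2 * η) +
        C * (4 * (2 * (L : ℝ) + 1) ^ 2 * (4 * (2 * ((M : ℝ) + 1) + 1))) := by
    refine (Finset.sum_le_sum hpair).trans ?_
    rw [Finset.sum_add_distrib, Finset.sum_const, nsmul_eq_mul, ← Finset.mul_sum]
    refine add_le_add (mul_le_mul_of_nonneg_right ?_ (by positivity))
      (mul_le_mul_of_nonneg_left hswap C.coe_nonneg)
    exact_mod_cast card_darts_le b
  refine (arith (k := k) (C := C) (L := L) (pack := pack) (η := η)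
    (by omega) (by omega) (by omega) (by omega) (le_refl _) hη hK hε X
    (Finset.sum_nonneg fun _ _ => measureReal_nonneg) hmain hnon').trans ?_
  have : (0 : ℝ) ≤ 4 * (2 * ((M₀ : ℝ) + 1) + 1) := by positivity
  linarith

end

end Vale.P158
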