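import Vale.Agent.P158.Peierls
import Vale.Agent.P158.Boundary

/-!
# P158, branch lemma: lowering cells and typical configurations

For every atomless law there are finitely many pairs of sets `(U j, L j)` such that a weight in
`U j` can be lowered into `L j` by an amount in `[dmin, g]`, and the `U j` carry all but a tiny part
of the mass. Long paths then contain many lowerable weights.
-/

namespace Vale.P158

open MeasureTheory ProbabilityTheory Filter Topology SimpleGraph Finset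
open scoped ENNReal
open Vale.Agent.P158.Crossing (Rect)

noncomputable section

namespace Branch

/-- Cells in which weights can be lowered. -/
structure Cells (μ : Measure ℝ) (g : ℝ) where
  m : ℕ
  U : Fin m → Set ℝ
  L : Fin m → Set ℝ
  dmin : ℝ
  dmin_pos : 0 < dmin
  hU : ∀ j, MeasurableSet (U j)
  hL : ∀ j, μ (L j) ≠ 0
  hLm : ∀ j, MeasurableSet (L j)
  L_nonneg : ∀ j, ∀ l ∈ L j, 0 ≤ l
  drop : ∀ j, ∀ x ∈ U j, ∀ l ∈ L j, dmin ≤ x - l ∧ x - l ≤ g
  cover : μ (⋃ j, U j)ᶜ ≤ (32⁻¹ : ℝ≥0∞) ^ 2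

namespace Cells

variable {μ : Measure ℝ} {g : ℝ} (c : Cells μ g)

/-- The weights that can be lowered. -/
def low : Set ℝ := ⋃ j, c.U j

lemma le_of_mem_low {x : ℝ} (hx : x ∈ c.low) : c.dmin ≤ x := by
  obtain ⟨j, hj⟩ := Set.mem_iUnion.1 hx
  obtain ⟨l, hl⟩ := nonempty_of_measure_ne_zero (c.hL j)
  linarith [(c.drop j x hj l hl).1, c.L_nonneg j l hl]

end Cells

lemma exists_Ioi_le (μ : Measure ℝ) [IsProbabilityMeasure μ] {ε : ℝ≥0∞} (hε : 0 < ε) :
    ∃ n : ℕ, μ (Set.Ioi (n : ℝ)) ≤ ε := by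
  have hi : (⋂ n : ℕ, Set.Ioi (n : ℝ)) = (∅ : Set ℝ) :=
    Set.eq_empty_of_forall_notMem fun x hx => by
      obtain ⟨n, hn⟩ := exists_nat_ge x
      exact absurd (Set.mem_iInter.1 hx n) (not_lt.2 hn)
  have hlim : Tendsto (fun n : ℕ => μ (Set.Ioi (n : ℝ))) atTop (𝓝 0) := by
    rw [← measure_empty (μ := μ), ← hi]
    exact tendsto_measure_iInter_atTop (fun n => measurableSet_Ioi.nullMeasurableSet)
      (fun m n hmn => Set.Ioi_subset_Ioi (by exact_mod_cast hmn)) ⟨0, measure_ne_top _ _⟩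
  exact (hlim.eventually (eventually_le_nhds hε)).exists

/-- Inside an interval of positive mass there is a strict gap between a bottom piece of positive mass
and almost all of the interval. -/
lemma exists_gap (μ : Measure ℝ) [IsProbabilityMeasure μ] [NullSingletonClass μ] {C : Set ℝ}
    (hC : MeasurableSet C) (h0 : μ C ≠ 0) {p : ℝ≥0∞} (hp : 0 < p) :
    ∃ a b : ℝ, b < a ∧ μ (C ∩ Set.Iic a) ≤ p ∧ μ (C ∩ Set.Iic b) ≠ 0 := by
  have : IsProbabilityMeasure μ[|C] := cond_isProbabilityMeasure h0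
  have hnull : NullSingletonClass μ[|C] := ⟨fun x => by
    rw [cond_apply hC, measure_mono_null Set.inter_subset_right (measure_singleton x), mul_zero]⟩
  obtain ⟨a, b, hba, ha, hb⟩ := exists_quantile μ[|C] hp
  refine ⟨a, b, hba, ?_, fun h => ?_⟩
  · rw [← cond_mul_eq_inter hC]
    exact (mul_le_of_le_one_right' prob_le_one).trans ha
  · rw [cond_apply hC, h, mul_zero] at hb
    exact lt_irrefl _ hb

/-- Cells exist for every atomless law on `[0, ∞)`. -/
theorem exists_cells (μ : Measure ℝ) [IsProbabilityMeasure μ] [NullSingletonClass μ]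
    (hμ : ∀ᵐ x ∂μ, 0 ≤ x) {g : ℝ} (hg : 0 < g) : Nonempty (Cells μ g) := by
  classical
  set ε : ℝ≥0∞ := (32⁻¹ : ℝ≥0∞) ^ 2 / 2 with hε
  have hε0 : 0 < ε := ENNReal.div_pos (pow_ne_zero _ (by simp)) (by simp)
  obtain ⟨n, hn⟩ := exists_Ioi_le μ hε0
  set N := ⌈(n : ℝ) / g⌉₊ with hN
  set p : ℝ≥0∞ := ε / (N + 1) with hp
  have hp0 : 0 < p := ENNReal.div_pos hε0.ne' (by finiteness)
  set C : Fin (N + 1) → Set ℝ := fun j => Set.Icc ((j : ℝ) * g) (((j : ℝ) + 1) * g) with hC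
  have hgap : ∀ j, ∃ (U L : Set ℝ) (d : ℝ), 0 < d ∧ MeasurableSet U ∧ MeasurableSet L ∧ μ L ≠ 0 ∧
      (∀ l ∈ L, 0 ≤ l) ∧ (∀ x ∈ U, ∀ l ∈ L, d ≤ x - l ∧ x - l ≤ g) ∧ μ (C j \ U) ≤ p := by
    intro j
    by_cases h0 : μ (C j) = 0
    · refine ⟨∅, Set.Ici 0, 1, one_pos, .empty, measurableSet_Ici, fun h => ?_, fun l hl => hl, fun x hx => hx.elim,
        by simp [h0]⟩
      exact zero_ne_one ((h.symm.trans ((measure_congr (ae_eq_univ.2
        (ae_iff.1 (hμ.mono fun x hx => Set.mem_Ici.2 hx)))).trans measure_univ)))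
    obtain ⟨a, b, hba, ha, hb⟩ := exists_gap μ (measurableSet_Icc (a := ((j : ℝ) * g))
      (b := ((j : ℝ) + 1) * g)) h0 hp0
    refine ⟨C j ∩ Set.Ioi a, C j ∩ Set.Iic b, a - b, sub_pos.2 hba,
      measurableSet_Icc.inter measurableSet_Ioi, measurableSet_Icc.inter measurableSet_Iic, hb,
      fun l hl => le_trans (by positivity) hl.1.1, fun x hx l hl => ?_, ?_⟩
    · obtain ⟨⟨h1, h2⟩, h3⟩ := hx
      obtain ⟨⟨h4, h5⟩, h6⟩ := hl
      simp only [Set.mem_Ioi] at h3
      simp only [Set.mem_Iic] at h6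
      constructor <;> linarith
    · refine le_trans (measure_mono fun x (hx : x ∈ C j \ (C j ∩ Set.Ioi a)) =>
        (⟨hx.1, ?_⟩ : x ∈ C j ∩ Set.Iic a)) ha
      exact Set.mem_Iic.2 (not_lt.1 fun h => hx.2 ⟨hx.1, h⟩)
  choose U L d hd hU hLm hL hL0 hdrop hcov using hgap
  refine ⟨⟨N + 1, U, L, univ.inf' univ_nonempty d, (Finset.lt_inf'_iff _).2 fun j _ => hd j, hU, hL,
    hLm, hL0, fun j x hx l hl => ⟨(inf'_le _ (mem_univ j)).trans (hdrop j x hx l hl).1,
      (hdrop j x hx l hl).2⟩, ?_⟩⟩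
  have hsub : (⋃ j, U j)ᶜ ⊆ {x | ¬0 ≤ x} ∪ Set.Ioi (n : ℝ) ∪ ⋃ j, (C j \ U j) := by
    intro x hx
    simp only [Set.mem_compl_iff, Set.mem_iUnion, not_exists] at hx
    by_cases h0 : 0 ≤ x
    · by_cases hn' : (n : ℝ) < x
      · exact Or.inl (Or.inr hn')
      · have hq : x / g ≤ (n : ℝ) / g := div_le_div_of_nonneg_right (not_lt.1 hn') hg.le
        have hj : ⌊x / g⌋₊ < N + 1 :=
          Nat.lt_succ_of_le (Nat.cast_le.1 ((Nat.floor_le (div_nonneg h0 hg.le)).trans
            (hq.trans (Nat.le_ceil _))))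
        refine Or.inr (Set.mem_iUnion.2 ⟨⟨_, hj⟩, ⟨?_, ?_⟩, hx _⟩)
        · exact (le_div_iff₀ hg).1 (Nat.floor_le (div_nonneg h0 hg.le))
        · exact ((div_lt_iff₀ hg).1 (Nat.lt_floor_add_one _)).le
    · exact Or.inl (Or.inl h0)
  calc μ (⋃ j, U j)ᶜ ≤ 0 + ε + ε := by
        refine (measure_mono hsub).trans ((measure_union_le _ _).trans (add_le_add
          ((measure_union_le _ _).trans (add_le_add (ae_iff.1 hμ).le hn)) ?_))
        refine (measure_iUnion_fintype_le _ _).trans ((Finset.sum_le_sum fun j _ => hcov j).trans ?_)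
        rw [Finset.sum_const, Finset.card_univ, Fintype.card_fin, nsmul_eq_mul, hp]
        push_cast
        exact ENNReal.mul_div_le
    _ = (32⁻¹ : ℝ≥0∞) ^ 2 := by rw [zero_add, hε, ENNReal.add_halves]

/-! ### Boxes -/

/-- The vertices at sup distance at most `r` from `s`. -/
def boxSet (s : Z2) (r : ℕ) : Finset Z2 :=
  Icc (s.1 - r) (s.1 + r) ×ˢ Icc (s.2 - r) (s.2 + r)

lemma mem_boxSet {s x : Z2} {r : ℕ} : x ∈ boxSet s r ↔ supDist s x ≤ r := by
  simp only [boxSet, supDist, mem_product, mem_Icc]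
  omega

lemma card_boxSet (s : Z2) (r : ℕ) : (boxSet s r).card = (2 * r + 1) ^ 2 := by
  rw [boxSet, card_product, Int.card_Icc, Int.card_Icc, sq]
  congr 1 <;> omega

lemma boxSet_mono {s : Z2} {r r' : ℕ} (h : r ≤ r') : boxSet s r ⊆ boxSet s r' := fun _ hx =>
  mem_boxSet.2 ((mem_boxSet.1 hx).trans h)

/-- The pairs of vertices of a box. -/
def edgeBox (s : Z2) (r : ℕ) : Finset (Sym2 Z2) :=
  (boxSet s r ×ˢ boxSet s r).image fun p => s(p.1, p.2)

lemma mem_edgeBox {s : Z2} {r : ℕ} {e : Sym2 Z2} (h : ∀ w ∈ e, supDist s w ≤ r) :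
    e ∈ edgeBox s r := by
  induction e using Sym2.ind with
  | h x y => exact mem_image.2 ⟨(x, y), mem_product.2 ⟨mem_boxSet.2 (h x (Sym2.mem_mk_left x y)),
      mem_boxSet.2 (h y (Sym2.mem_mk_right x y))⟩, rfl⟩

lemma card_edgeBox (s : Z2) (r : ℕ) : (edgeBox s r).card ≤ ((2 * r + 1) ^ 2) ^ 2 := by
  refine card_image_le.trans ?_
  rw [card_product, card_boxSet, ← sq]

/-- A walk gets away from `s` by at most its length. -/
lemma supDist_getVert (s : Z2) {x y : Z2} (p : lattice.Walk x y) (j : ℕ) :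
    supDist s (p.getVert j) ≤ supDist s x + j := by
  induction j with
  | zero => simp
  | succ j ih =>
    rcases lt_or_ge j p.length with h | h
    · have := supDist_step (z := s) (p.adj_getVert_succ h)
      omega
    · rw [p.getVert_of_length_le (h.trans j.le_succ), ← p.getVert_of_length_le h]
      omega

lemma supDist_le_length (s : Z2) {x y : Z2} (p : lattice.Walk x y) :
    supDist s y ≤ supDist s x + p.length := by
  simpa using supDist_getVert s p p.length

/-- Passage times inside a box are at most its total weight. -/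
lemma passU_le_box {t : Sym2 Z2 → ℝ} (ht : ∀ e, 0 ≤ t e) {U : Set Z2} {s : Z2} {r : ℕ}
    (hU : ∀ x, supDist s x ≤ r → x ∈ U) {x y : Z2} (hx : supDist s x ≤ r)
    (hy : supDist s y ≤ r) : passU t U x y ≤ ∑ e ∈ edgeBox s r, t e := by
  rcases Nat.eq_zero_or_pos r with rfl | hr
  · have hxy : x = y := by
      simp only [supDist] at hx hy
      exact Prod.ext (by omega) (by omega)
    rw [hxy, passU_self ht (hU y hy)]
    exact sum_nonneg fun e _ => ht e
  set B : Rect := ⟨s.1 - r, s.1 + r, s.2 - r, s.2 + r, by omega, by omega⟩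
  have hB : ∀ w, B.Mem w ↔ supDist s w ≤ r := fun w => by
    simp only [Rect.Mem, supDist, B]; omega
  obtain ⟨p, hp⟩ := joinedIn_box B ((hB x).2 hx) ((hB y).2 hy)
  have hsupp : ∀ w ∈ p.bypass.support, supDist s w ≤ r := fun w hw =>
    (hB w).1 (hp w (p.support_bypass_subset_support hw))
  refine (passU_le ht p.bypass fun w hw => hU w (hsupp w hw)).trans ?_
  rw [wlen_path t p.bypass_isPath]
  refine sum_le_sum_of_subset_of_nonneg (fun e he => mem_edgeBox fun w hw => hsupp w ?_)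
    fun e _ _ => ht e
  obtain ⟨w', rfl⟩ := Sym2.mem_iff_exists.1 hw
  exact p.bypass.fst_mem_support_of_mem_edges (List.mem_toFinset.1 he)

/-! ### Typical configurations -/

variable {μ : Measure ℝ} {g : ℝ}

open scoped Classical in
/-- The lowerable edges of a walk. -/
def lowEdges (c : Cells μ g) (t : Sym2 Z2 → ℝ) {x y : Z2} (p : lattice.Walk x y) :
    Finset (Sym2 Z2) :=
  p.edges.toFinset.filter fun e => t e ∈ c.low

/-- Long paths from `x` are at least half lowerable. -/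
def LongLow (c : Cells μ g) (t : Sym2 Z2 → ℝ) (x : Z2) (n₀ : ℕ) : Prop :=
  ∀ (y : Z2) (p : lattice.Walk x y), p.IsPath → n₀ ≤ p.length →
    p.length ≤ 2 * (lowEdges c t p).card

lemma cost_ge {c : Cells μ g} {t : Sym2 Z2 → ℝ} (ht : ∀ e, 0 ≤ t e) {x : Z2} {n₀ : ℕ}
    (h : LongLow c t x n₀) {y : Z2} {p : lattice.Walk x y} (hp : p.IsPath)
    (hn : n₀ ≤ p.length) : c.dmin / 2 * p.length ≤ wlen t p := by
  classical
  rw [wlen_path t hp]
  refine le_trans ?_ (sum_le_sum_of_subset_of_nonneg (filter_subset (fun e => t e ∈ c.low) _)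
    fun e _ _ => ht e)
  have h1 : (p.length : ℝ) ≤ 2 * ((lowEdges c t p).card : ℝ) := by exact_mod_cast h y p hp hn
  have h2 : ((lowEdges c t p).card : ℝ) * c.dmin ≤ ∑ e ∈ lowEdges c t p, t e := by
    rw [← nsmul_eq_mul, ← Finset.sum_const]
    exact sum_le_sum fun e he => c.le_of_mem_low (mem_filter.1 he).2
  have := mul_le_mul_of_nonneg_right h1 c.dmin_pos.le
  change _ ≤ ∑ e ∈ lowEdges c t p, t e
  nlinarith

variable (μ) in
lemma ae_nonneg [IsProbabilityMeasure μ] (hμ : ∀ᵐ x ∂μ, 0 ≤ x) :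
    ∀ᵐ t ∂iidLaw (Sym2 Z2) μ, ∀ e, 0 ≤ t e := by
  rw [eventually_countable_forall]
  intro i
  have := hμ
  rw [← Measure.infinitePi_map_eval (fun _ : Sym2 Z2 => μ) i] at this
  exact ae_of_ae_map (measurable_pi_apply i).aemeasurable this

/-- The weight of a box is tight, uniformly in its centre. -/
theorem exists_sum_le (μ : Measure ℝ) [IsProbabilityMeasure μ] (r : ℕ) {η : ℝ≥0∞} (hη : 0 < η) :
    ∃ M : ℝ, 0 ≤ M ∧ ∀ s : Z2,
      iidLaw (Sym2 Z2) μ {t | ¬∑ e ∈ edgeBox s r, t e ≤ M} ≤ η := by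
  set N := ((2 * r + 1) ^ 2) ^ 2
  obtain ⟨n, hn⟩ := exists_Ioi_le μ (ENNReal.div_pos hη.ne' (ENNReal.natCast_ne_top N))
  refine ⟨N * n, by positivity, fun s => ?_⟩
  calc iidLaw (Sym2 Z2) μ {t | ¬∑ e ∈ edgeBox s r, t e ≤ N * n}
      ≤ iidLaw (Sym2 Z2) μ (⋃ e ∈ edgeBox s r, (fun t => t e) ⁻¹' Set.Ioi (n : ℝ)) := by
        refine measure_mono fun t ht => ?_
        by_contra hcon
        simp only [Set.mem_iUnion, Set.mem_preimage, Set.mem_Ioi, not_exists, not_lt] at hcon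
        refine ht ((sum_le_card_nsmul _ _ _ hcon).trans ?_)
        rw [nsmul_eq_mul]
        exact mul_le_mul_of_nonneg_right (by exact_mod_cast card_edgeBox s r) (by positivity)
    _ ≤ ∑ _e ∈ edgeBox s r, η / N := by
        refine (measure_biUnion_finset_le _ _).trans (sum_le_sum fun e _ => ?_)
        rw [← Measure.map_apply (measurable_pi_apply e) measurableSet_Ioi, iidLaw,
          Measure.infinitePi_map_eval]
        exact hn
    _ ≤ η := by
        rw [Finset.sum_const, nsmul_eq_mul]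
        exact (mul_le_mul_left (by exact_mod_cast card_edgeBox s r) _).trans ENNReal.mul_div_le

open scoped Classical in
lemma measure_not_longLow_le [IsProbabilityMeasure μ] (c : Cells μ g) (x : Z2) (n₀ : ℕ) :
    iidLaw (Sym2 Z2) μ {t | ¬LongLow c t x n₀} ≤ 2 * (4⁻¹ : ℝ≥0∞) ^ n₀ := by
  set f : ℝ → ℝ := c.low.indicator 1
  have hf : Measurable f :=
    Measurable.indicator measurable_const (MeasurableSet.iUnion c.hU)
  have : IsProbabilityMeasure (μ.map f) := Measure.isProbabilityMeasure_map hf.aemeasurable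
  have hq : LowQuantile (μ.map f) (1 / 2) := by
    rw [LowQuantile, Measure.map_apply hf measurableSet_Iic]
    refine (measure_mono fun z hz => ?_).trans c.cover
    intro hzU
    simp [f, Cells.low, Set.indicator_of_mem hzU] at hz
    norm_num at hz
  set F : (Sym2 Z2 → ℝ) → Sym2 Z2 → ℝ := fun t e => f (t e)
  have hF : Measurable F := measurable_pi_lambda _ fun e => hf.comp (measurable_pi_apply e)
  have hmap : (iidLaw (Sym2 Z2) μ).map F = iidLaw (Sym2 Z2) (μ.map f) :=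
    Measure.infinitePi_map_pi _ fun _ => hf
  calc iidLaw (Sym2 Z2) μ {t | ¬LongLow c t x n₀}
      ≤ iidLaw (Sym2 Z2) μ (F ⁻¹' ⋃ k : ℕ, fewHeavy lattice (1 / 2) x (n₀ + k)) := by
        refine measure_mono fun t ht => ?_
        simp only [LongLow, Set.mem_ofPred_eq, not_forall, not_le] at ht
        obtain ⟨y, p, hp, hn, hlt⟩ := ht
        refine Set.mem_preimage.2 (Set.mem_iUnion.2 ⟨p.length - n₀, y, p, hp,
          (Nat.add_sub_cancel' hn).symm, ?_⟩)
        rw [Nat.add_sub_cancel' hn]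
        refine lt_of_le_of_lt (Nat.mul_le_mul_left 2 (card_le_card fun e he => ?_)) hlt
        simp only [mem_filter, lowEdges] at he ⊢
        refine ⟨he.1, by_contra fun hlow => ?_⟩
        have := he.2
        simp [F, f, Set.indicator_of_notMem hlow] at this
        norm_num at this
    _ ≤ iidLaw (Sym2 Z2) (μ.map f) (⋃ k : ℕ, fewHeavy lattice (1 / 2) x (n₀ + k)) :=
        hmap ▸ Measure.le_map_apply hF.aemeasurable _
    _ ≤ ∑' k : ℕ, (4⁻¹ : ℝ≥0∞) ^ (n₀ + k) :=
        (measure_iUnion_le _).trans (ENNReal.tsum_le_tsum fun k =>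
          measure_fewHeavy_le nbrs (fun _ _ h => mem_nbrs h) card_nbrs _ hq x _)
    _ ≤ 2 * (4⁻¹ : ℝ≥0∞) ^ n₀ := by
        simp only [pow_add]
        rw [ENNReal.tsum_mul_left, mul_comm]
        refine mul_le_mul_left ?_ _
        rw [ENNReal.tsum_geometric, ← inv_inv (2 : ℝ≥0∞), ENNReal.inv_le_inv]
        refine le_trans ?_ (tsub_le_tsub_left (ENNReal.inv_le_inv.2 (by norm_num : (2 : ℝ≥0∞) ≤ 4)) 1)
        rw [ENNReal.one_sub_inv_two]

/-- All long paths from a box are half lowerable, uniformly in its centre. -/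
theorem exists_longLow [IsProbabilityMeasure μ] (c : Cells μ g) (r : ℕ) {η : ℝ≥0∞} (hη : 0 < η) :
    ∃ n₀ : ℕ, ∀ s : Z2,
      iidLaw (Sym2 Z2) μ {t | ¬∀ x ∈ boxSet s r, LongLow c t x n₀} ≤ η := by
  set N := (2 * r + 1) ^ 2
  have hlim : Tendsto (fun n : ℕ => (N : ℝ≥0∞) * (2 * (4⁻¹ : ℝ≥0∞) ^ n)) atTop (𝓝 0) := by
    have h := ENNReal.tendsto_pow_atTop_nhds_zero_of_lt_one
      (show (4⁻¹ : ℝ≥0∞) < 1 from ENNReal.inv_lt_one.2 (by norm_num))
    have h2 := ENNReal.Tendsto.const_mul h (Or.inr (show (N : ℝ≥0∞) * 2 ≠ ∞ by finiteness))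
    simpa [mul_assoc] using h2
  obtain ⟨n, hn⟩ := (hlim.eventually (eventually_le_nhds hη)).exists
  refine ⟨n, fun s => ?_⟩
  calc iidLaw (Sym2 Z2) μ {t | ¬∀ x ∈ boxSet s r, LongLow c t x n}
      ≤ iidLaw (Sym2 Z2) μ (⋃ x ∈ boxSet s r, {t | ¬LongLow c t x n}) :=
        measure_mono fun t ht => by simpa using ht
    _ ≤ ∑ _x ∈ boxSet s r, 2 * (4⁻¹ : ℝ≥0∞) ^ n :=
        (measure_biUnion_finset_le _ _).trans (sum_le_sum fun x _ => measure_not_longLow_le c x n)
    _ ≤ η := by rwa [Finset.sum_const, nsmul_eq_mul, card_boxSet]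

end Branch

end

end Vale.P158
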