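import Vale.Agent.P158.GeoU

/-!
# P158, step (3.1): the deterministic branch lemma

`t'` is `t` lowered on three sets of edges: `I` on a geodesic `i → u`, `A` on a geodesic `u → a` and
`B` on a geodesic `v → b`. If the lowered totals lie in an explicit window, the new geodesics
`i → a` and `i → b` share a vertex of the `I` segment and only the second one uses `B`.
See `STEP3.md`.
-/

namespace Vale.P158

open SimpleGraph Finset

noncomputable section

namespace Branch

/-- `t'` on `F`, `t` elsewhere. -/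
def mix (t t' : Sym2 Z2 → ℝ) (F : Finset (Sym2 Z2)) : Sym2 Z2 → ℝ :=
  fun e => if e ∈ F then t' e else t e

/-- The total lowering on `F`. -/
def gain (t t' : Sym2 Z2 → ℝ) (F : Finset (Sym2 Z2)) : ℝ := ∑ e ∈ F, (t e - t' e)

variable {t t' : Sym2 Z2 → ℝ} {U : Set Z2}

lemma gain_nonneg (h : ∀ e, t' e ≤ t e) (F : Finset (Sym2 Z2)) : 0 ≤ gain t t' F :=
  sum_nonneg fun e _ => sub_nonneg.2 (h e)

lemma gain_mono (h : ∀ e, t' e ≤ t e) {F F' : Finset (Sym2 Z2)} (hF : F ⊆ F') :
    gain t t' F ≤ gain t t' F' :=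
  sum_le_sum_of_subset_of_nonneg hF fun e _ _ => sub_nonneg.2 (h e)

lemma gain_union_le (h : ∀ e, t' e ≤ t e) (F F' : Finset (Sym2 Z2)) :
    gain t t' (F ∪ F') ≤ gain t t' F + gain t t' F' := by
  unfold gain
  rw [← sum_union_inter]
  linarith [gain_nonneg h (F ∩ F'), show gain t t' (F ∩ F') = ∑ e ∈ F ∩ F', (t e - t' e) from rfl]

lemma mix_le (h : ∀ e, t' e ≤ t e) (F : Finset (Sym2 Z2)) (e) : mix t t' F e ≤ t e := by
  unfold mix; split_ifs
  exacts [h e, le_rfl]

lemma le_mix (h : ∀ e, t' e ≤ t e) (F : Finset (Sym2 Z2)) (e) : t' e ≤ mix t t' F e := by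
  unfold mix; split_ifs
  exacts [le_rfl, h e]

lemma mix_nonneg (h0 : ∀ e, 0 ≤ t' e) (h : ∀ e, t' e ≤ t e) (F : Finset (Sym2 Z2)) (e) :
    0 ≤ mix t t' F e :=
  (h0 e).trans (le_mix h F e)

lemma mix_mono (h : ∀ e, t' e ≤ t e) {F F' : Finset (Sym2 Z2)} (hF : F ⊆ F') (e) :
    mix t t' F' e ≤ mix t t' F e := by
  unfold mix; split_ifs with h1 h2 h2
  exacts [le_rfl, h e, (h1 (hF h2)).elim, le_rfl]

/-- Lowering a path lowers it by the gain on its edges. -/
lemma wlen_mix {x y : Z2} {p : lattice.Walk x y} (hp : p.IsPath) (F : Finset (Sym2 Z2)) :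
    wlen (mix t t' F) p = wlen t p - gain t t' (p.edges.toFinset ∩ F) := by
  rw [wlen_path _ hp, wlen_path t hp, gain, ← Finset.filter_mem_eq_inter, Finset.sum_filter,
    ← Finset.sum_sub_distrib]
  refine sum_congr rfl fun e _ => ?_
  unfold mix; split_ifs <;> ring

lemma wlen_le_wlen {s s' : Sym2 Z2 → ℝ} (h : ∀ e, s e ≤ s' e) {x y : Z2}
    (p : lattice.Walk x y) : wlen s p ≤ wlen s' p :=
  List.sum_le_sum fun e _ => h e

lemma exists_mem_endpoints {x y : Z2} (p : lattice.Walk x y) {e : Sym2 Z2} (he : e ∈ p.edges) :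
    ∃ w, w ∈ e ∧ w ∈ p.support := by
  induction e using Sym2.ind with
  | h v w => exact ⟨v, Sym2.mem_mk_left v w, p.fst_mem_support_of_mem_edges he⟩

lemma mem_support_of_mem {x y : Z2} (p : lattice.Walk x y) {e : Sym2 Z2} (he : e ∈ p.edges)
    {w : Z2} (hw : w ∈ e) : w ∈ p.support := by
  obtain ⟨w', rfl⟩ := Sym2.mem_iff_exists.1 hw
  exact p.fst_mem_support_of_mem_edges he

/-- The passage times at the vertices of a geodesic add up. -/
lemma level_eq (ht : ∀ e, 0 ≤ t e) {x y : Z2} {p : lattice.Walk x y} (h : IsGeoU t U p) {w : Z2}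
    (hw : w ∈ p.support) : passU t U x w + passU t U w y = passU t U x y := by
  rw [← (h.left ht hw).wlen_eq_passU ht, ← (h.right ht hw).wlen_eq_passU ht, ← wlen_append,
    Walk.take_spec, h.wlen_eq_passU ht]

lemma take_spec_le (ht : ∀ e, 0 ≤ t e) {x y : Z2} {p : lattice.Walk x y}
    (hp : ∀ w ∈ p.support, w ∈ U) {w : Z2} (hw : w ∈ p.support) :
    passU t U x w + passU t U w y ≤ wlen t p := by
  conv_rhs => rw [← p.take_spec hw, wlen_append]
  exact add_le_add (passU_le ht _ fun z hz => hp z (p.support_takeUntil_subset_support hw hz))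
    (passU_le ht _ fun z hz => hp z (p.support_dropUntil_subset_support hw hz))

end Branch

/-- The data of the branch lemma. -/
structure BranchData (t t' : Sym2 Z2 → ℝ) (U : Set Z2) (i a b u v : Z2) where
  ht' : ∀ e, 0 ≤ t' e
  le : ∀ e, t' e ≤ t e
  conn : ∀ x ∈ U, ∀ y ∈ U, JoinedIn U x y
  Pi : lattice.Walk i u
  hPi : IsGeoU t U Pi
  Pa : lattice.Walk u a
  hPa : IsGeoU t U Pa
  Pb : lattice.Walk v b
  hPb : IsGeoU t U Pb
  I : Finset (Sym2 Z2)
  hI : ∀ e ∈ I, e ∈ Pi.edges
  A : Finset (Sym2 Z2)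
  hA : ∀ e ∈ A, e ∈ Pa.edges
  B : Finset (Sym2 Z2)
  hB : ∀ e ∈ B, e ∈ Pb.edges
  hout : ∀ e, e ∉ I → e ∉ A → e ∉ B → t' e = t e
  /-- The first and last vertex of the window containing `B`. -/
  v₀ : Z2
  v₁ : Z2
  hv₀ : v₀ ∈ Pb.support
  hv₁ : v₁ ∈ Pb.support
  hv₀B : ∀ e ∈ B, e ∈ (Pb.dropUntil v₀ hv₀).edges
  hv₁B : ∀ e ∈ B, ∀ w ∈ e, passU t U v w ≤ passU t U v v₁
  G₀ : ℝ
  Γ : ℝ
  G : ℝ
  H : ℝ
  θ : ℝ
  δ : ℝ
  Λ : ℝ
  ℓ : ℝ
  hG : Branch.gain t t' I = G
  hH : Branch.gain t t' A = H
  hθ : Branch.gain t t' B = θ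
  slack_a : passU t U i u + passU t U u a ≤ passU t U i a + G₀
  slack_b : passU t U i u + passU t U u b ≤ passU t U i b + G₀
  uv : passU t U u v ≤ Γ
  levI : ∀ e ∈ I, ∀ w ∈ e, Λ ≤ passU t U w u
  levA : ∀ e ∈ A, ∀ w ∈ e, Λ ≤ passU t U u w ∧ passU t U u w ≤ ℓ
  levB : ∀ e ∈ B, ∀ w ∈ e, ℓ + Λ ≤ passU t U v w
  hℓ : 0 ≤ ℓ
  hΛ : 2 * G₀ + 2 * Γ + G + H + θ + 1 ≤ Λ
  hH₀ : G₀ ≤ H
  hGH : G₀ + H + θ < G
  /-- An edge near `u`, off `Pb`, which routes from `v` to `a` may have to avoid. -/
  e₀ : Sym2 Z2
  w₀ : Z2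
  hw₀ : w₀ ∈ e₀
  hw₀U : w₀ ∈ U
  near₀ : passU t U u w₀ ≤ Γ
  /-- A lower bound for the routes from `v` to `a` along `Pb` and then avoiding `e₀`. -/
  Va : ℝ
  hVa : ∀ p ∈ Pb.support, ∀ q : lattice.Walk p a, (∀ w ∈ q.support, w ∈ U) → e₀ ∉ q.edges →
    Va ≤ passU t U v p + wlen t q
  /-- Small variation of `T₁ (i, ·) - T (v, ·)` on the window. -/
  flat : passU (Branch.mix t t' (I ∪ A)) U i v₀ - passU t U v v₀ ≤
    passU (Branch.mix t t' (I ∪ A)) U i v₁ - passU t U v v₁ + δ

namespace BranchData

open Branch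

variable {t t' : Sym2 Z2 → ℝ} {U : Set Z2} {i a b u v : Z2} (d : BranchData t t' U i a b u v)

/-- `t` lowered on `I`. -/
def tI : Sym2 Z2 → ℝ := mix t t' d.I

/-- `t` lowered on `I` and `A`. -/
def t₁ : Sym2 Z2 → ℝ := mix t t' (d.I ∪ d.A)


include d

lemma ht (e) : 0 ≤ t e := (d.ht' e).trans (d.le e)

lemma t₁_nonneg (e) : 0 ≤ d.t₁ e := mix_nonneg d.ht' d.le _ e

lemma tI_nonneg (e) : 0 ≤ d.tI e := mix_nonneg d.ht' d.le _ e

lemma t'_eq : t' = mix t t' (d.I ∪ d.A ∪ d.B) := by
  funext e
  unfold mix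
  split_ifs with h
  · rfl
  · simp only [mem_union, not_or] at h
    exact d.hout e h.1.1 h.1.2 h.2

lemma wlen_t' {x y : Z2} {p : lattice.Walk x y} (hp : p.IsPath) :
    wlen t' p = wlen t p - gain t t' (p.edges.toFinset ∩ (d.I ∪ d.A ∪ d.B)) :=
  (congrArg (fun s => wlen s p) d.t'_eq).trans (wlen_mix hp _)

lemma G₀_nonneg : 0 ≤ d.G₀ := by
  have h := passU_triangle d.ht d.hPi.joined d.hPa.joined
  have := d.slack_a
  linarith

lemma Γ_nonneg : 0 ≤ d.Γ := (passU_nonneg d.ht U u v).trans d.uv

lemma G_nonneg : 0 ≤ d.G := d.hG ▸ gain_nonneg d.le _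

lemma H_nonneg : 0 ≤ d.H := d.hH ▸ gain_nonneg d.le _

lemma θ_nonneg : 0 ≤ d.θ := d.hθ ▸ gain_nonneg d.le _

lemma memI {e : Sym2 Z2} (he : e ∈ d.I) {w : Z2} (hw : w ∈ e) : w ∈ d.Pi.support :=
  mem_support_of_mem d.Pi (d.hI e he) hw

lemma memA {e : Sym2 Z2} (he : e ∈ d.A) {w : Z2} (hw : w ∈ e) : w ∈ d.Pa.support :=
  mem_support_of_mem d.Pa (d.hA e he) hw

lemma memB {e : Sym2 Z2} (he : e ∈ d.B) {w : Z2} (hw : w ∈ e) : w ∈ d.Pb.support :=
  mem_support_of_mem d.Pb (d.hB e he) hw

lemma memU_i : i ∈ U := d.hPi.mem d.Pi.start_mem_support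

lemma memU_u : u ∈ U := d.hPi.mem d.Pi.end_mem_support

lemma memU_v : v ∈ U := d.hPb.mem d.Pb.start_mem_support

lemma memU_a : a ∈ U := d.hPa.mem d.Pa.end_mem_support

lemma memU_b : b ∈ U := d.hPb.mem d.Pb.end_mem_support

lemma tri {x y z : Z2} (hx : x ∈ U) (hy : y ∈ U) (hz : z ∈ U) : passU t U x z ≤ passU t U x y + passU t U y z :=
  passU_triangle d.ht (d.conn x hx y hy) (d.conn y hy z hz)

/-- The slack bound from `i` for either of the two targets. -/
lemma slack {x : Z2} (hx : x = a ∨ x = b) : passU t U i u + passU t U u x ≤ passU t U i x + d.G₀ := by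
  rcases hx with rfl | rfl
  exacts [d.slack_a, d.slack_b]

lemma memU_x {x : Z2} (hx : x = a ∨ x = b) : x ∈ U := by
  rcases hx with rfl | rfl
  exacts [d.memU_a, d.memU_b]

lemma far_A {e : Sym2 Z2} (he : e ∈ d.A) {w : Z2} (hw : w ∈ e) :
    passU t U i u + passU t U u w - d.G₀ ≤ passU t U i w := by
  have hwP := d.memA he hw
  have h1 := d.tri d.memU_i (d.hPa.mem hwP) d.memU_a
  have h2 := level_eq d.ht d.hPa hwP
  have := d.slack_a
  linarith

lemma far_B {e : Sym2 Z2} (he : e ∈ d.B) {w : Z2} (hw : w ∈ e) :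
    passU t U i u + passU t U v w - d.Γ - d.G₀ ≤ passU t U i w := by
  have hwP := d.memB he hw
  have h1 := d.tri d.memU_i (d.hPb.mem hwP) d.memU_b
  have h2 := level_eq d.ht d.hPb hwP
  have h3 := d.tri d.memU_v d.memU_u d.memU_b
  have h4 := passU_comm d.ht U u v
  have := d.slack_b
  have := d.uv
  linarith

lemma far_I {e : Sym2 Z2} (he : e ∈ d.I) {w : Z2} (hw : w ∈ e) {x : Z2} (hx : x = a ∨ x = b) :
    passU t U u x + passU t U w u - d.G₀ ≤ passU t U w x := by
  have hwP := d.memI he hw
  have h1 := d.tri d.memU_i (d.hPi.mem hwP) (d.memU_x hx)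
  have h2 := level_eq d.ht d.hPi hwP
  have := d.slack hx
  linarith

lemma gain_le (F : Finset (Sym2 Z2)) : gain t t' (F ∩ (d.I ∪ d.A ∪ d.B)) ≤ d.G + d.H + d.θ := by
  refine (gain_mono d.le inter_subset_right).trans ?_
  refine (gain_union_le d.le _ _).trans ?_
  have := gain_union_le d.le d.I d.A
  rw [d.hG, d.hH] at this
  rw [d.hθ]
  linarith

lemma wlen_t'_ge {x y : Z2} {r : lattice.Walk x y} (hr : r.IsPath) :
    wlen t r - (d.G + d.H + d.θ) ≤ wlen t' r := by
  conv_rhs => rw [d.wlen_t' hr]
  linarith [d.gain_le r.edges.toFinset]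

/-- An expensive route: one through two far apart lowered edges in the wrong order. -/
lemma costly {x : Z2} (hx : x = a ∨ x = b) {r : lattice.Walk i x}
    (hrU : ∀ w ∈ r.support, w ∈ U) {p : Z2} (hp : p ∈ r.support) {e e' : Sym2 Z2}
    (he' : e' ∈ (r.dropUntil p hp).edges) (hpe : p ∈ e)
    (hcase : (e ∈ d.A ∧ e' ∈ d.I) ∨ (e ∈ d.B ∧ (e' ∈ d.I ∨ e' ∈ d.A))) :
    passU t U i u + passU t U u x + (2 * d.Λ - 2 * d.G₀ - 2 * d.Γ) ≤ wlen t r := by
  obtain ⟨q, hqe, hq⟩ := exists_mem_endpoints _ he'
  have hqU : q ∈ U := hrU q (r.support_dropUntil_subset_support hp hq)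
  have hpU : p ∈ U := hrU p hp
  have hlen : passU t U i p + (passU t U p q + passU t U q x) ≤ wlen t r := by
    conv_rhs => rw [← r.take_spec hp, wlen_append]
    refine add_le_add
      (passU_le d.ht _ fun z hz => hrU z (r.support_takeUntil_subset_support hp hz)) ?_
    exact take_spec_le d.ht
      (fun z hz => hrU z (r.support_dropUntil_subset_support hp hz)) hq
  have := passU_nonneg d.ht U p q
  have := d.Γ_nonneg
  have := d.G₀_nonneg
  have := d.G_nonneg
  have := d.H_nonneg
  have := d.θ_nonneg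
  have := d.hΛ
  have := d.hℓ
  rcases hcase with ⟨hA, hI⟩ | ⟨hB, hIA⟩
  · have := d.far_A hA hpe
    have := d.far_I hI hqe hx
    have := (d.levA e hA p hpe).1
    have := d.levI e' hI q hqe
    linarith
  · have := d.far_B hB hpe
    have := d.levB e hB p hpe
    rcases hIA with hI | hA
    · have := d.far_I hI hqe hx
      have := d.levI e' hI q hqe
      linarith
    · have := (d.levA e' hA q hqe).2
      have := d.tri d.memU_v d.memU_u hqU
      have := d.tri d.memU_v hqU hpU
      have := d.tri d.memU_u hqU (d.memU_x hx)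
      have := passU_comm d.ht U p q
      have := passU_comm d.ht U u v
      have := d.uv
      linarith

lemma passU₁_le_via {x : Z2} (hx : x = a ∨ x = b) :
    passU d.t₁ U i x ≤ passU t U i u + passU t U u x - d.G := by
  obtain ⟨Q, hQ⟩ := d.conn u d.memU_u x (d.memU_x hx)
  have h : passU d.t₁ U i x - passU t U u x ≤ passU t U i u - d.G := by
    have hP : wlen d.t₁ d.Pi ≤ passU t U i u - d.G := by
      refine (wlen_le_wlen (mix_mono d.le subset_union_left) _).trans ?_
      rw [wlen_mix d.hPi.isPath, d.hPi.wlen_eq_passU d.ht,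
        inter_eq_right.2 (fun e he => List.mem_toFinset.2 (d.hI e he)), d.hG]
    have : passU d.t₁ U i x - wlen d.t₁ d.Pi ≤ passU t U u x := by
      refine le_passU ⟨Q, hQ⟩ fun R hR => ?_
      have h1 := passU_le d.t₁_nonneg (d.Pi.append R) (U := U) fun w hw => by
        rcases (Walk.mem_support_append_iff _ _).1 hw with h | h
        exacts [d.hPi.mem h, hR w h]
      rw [wlen_append] at h1
      have h2 := wlen_le_wlen (mix_le d.le (d.I ∪ d.A)) R
      change _ ≤ wlen t R
      simp only [t₁] at h1 ⊢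
      linarith
    linarith
  linarith

lemma passU'_le₁ {x y : Z2} (hx : x ∈ U) (hy : y ∈ U) : passU t' U x y ≤ passU d.t₁ U x y :=
  le_passU (d.conn x hx y hy) fun r hr =>
    (passU_le d.ht' r hr).trans (wlen_le_wlen (fun e => le_mix d.le _ e) r)

lemma disjoint_AI {e : Sym2 Z2} (hA : e ∈ d.A) : e ∉ d.I := by
  intro hI
  obtain ⟨w, hw⟩ : ∃ w, w ∈ e := ⟨_, Sym2.out_fst_mem e⟩
  have h1 := d.far_A hA hw
  have h2 := level_eq d.ht d.hPi (d.memI hI hw)
  have := (d.levA e hA w hw).1
  have := d.levI e hI w hw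
  have := d.G₀_nonneg
  have := d.Γ_nonneg
  have := d.G_nonneg
  have := d.H_nonneg
  have := d.θ_nonneg
  have := d.hΛ
  linarith

/-- The lowering on the `A` segment does not close the gap between the two targets. -/
theorem passU₁_gap : passU t U u b - passU t U u a ≤ passU d.t₁ U i b - passU d.t₁ U i a := by
  have hconn := d.conn i d.memU_i b d.memU_b
  obtain ⟨r₀, hr₀⟩ := hconn
  suffices h : ∀ r : lattice.Walk i b, r.IsPath → (∀ w ∈ r.support, w ∈ U) →
      passU d.t₁ U i a + (passU t U u b - passU t U u a) ≤ wlen d.t₁ r by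
    have : passU d.t₁ U i a + (passU t U u b - passU t U u a) ≤ passU d.t₁ U i b := by
      refine le_passU ⟨r₀, hr₀⟩ fun r hr => ?_
      exact (h _ r.bypass_isPath fun w hw => hr w (r.support_bypass_subset_support hw)).trans
        (wlen_bypass_le d.t₁_nonneg r)
    linarith
  intro r hr hrU
  have hlen : passU t U i b ≤ wlen t r := passU_le d.ht r hrU
  -- the reference route to `a`
  have hPA : ∀ w (hw : w ∈ d.Pa.support), wlen d.t₁ (d.Pa.dropUntil w hw) ≤
      passU t U w a - gain t t' ((d.Pa.dropUntil w hw).edges.toFinset ∩ d.A) := fun w hw => by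
    refine (wlen_le_wlen (mix_mono d.le subset_union_right) _).trans ?_
    rw [wlen_mix (d.hPa.isPath.dropUntil hw), (d.hPa.right d.ht hw).wlen_eq_passU d.ht]
  set F := (r.edges.toFinset ∩ d.A) with hF
  by_cases hne : F.Nonempty
  · -- the endpoint of smallest level among the lowered `A` edges of `r`
    obtain ⟨p, hp, hmin⟩ := Finset.exists_min_image (F.biUnion fun e => e.toFinset)
      (fun w => passU t U u w) (by
        obtain ⟨e, he⟩ := hne
        exact ⟨(Quot.out e).1, mem_biUnion.2 ⟨e, he, Sym2.mem_toFinset.2 (Sym2.out_fst_mem e)⟩⟩)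
    obtain ⟨e₀, he₀, hpe₀⟩ := mem_biUnion.1 hp
    rw [Sym2.mem_toFinset] at hpe₀
    simp only [hF, mem_inter, List.mem_toFinset] at he₀
    have hpr : p ∈ r.support := mem_support_of_mem r he₀.1 hpe₀
    have hpa : p ∈ d.Pa.support := d.memA he₀.2 hpe₀
    by_cases hI : ∃ e' ∈ (r.dropUntil p hpr).edges, e' ∈ d.I
    · obtain ⟨e', he', heI⟩ := hI
      have h1 := d.costly (Or.inr rfl) hrU hpr he' hpe₀ (Or.inl ⟨he₀.2, heI⟩)
      have h2 := d.passU₁_le_via (x := a) (Or.inl rfl)
      have h3 : wlen t r - (d.G + d.H + d.θ) ≤ wlen d.t₁ r :=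
        (d.wlen_t'_ge hr).trans (wlen_le_wlen (fun e => le_mix d.le _ e) r)
      have := d.Γ_nonneg
      have := d.G₀_nonneg
      have := d.G_nonneg
      have := d.H_nonneg
      have := d.θ_nonneg
      have := d.hΛ
      linarith
    · push Not at hI
      -- every `A` edge of `r` is after `p` on `Pa`, up to edges of weight zero
      have hsub : gain t t' F ≤ gain t t' ((d.Pa.dropUntil p hpa).edges.toFinset ∩ d.A) := by
        rw [gain, gain, ← sum_filter_add_sum_filter_not F (fun e => e ∈ (d.Pa.dropUntil p hpa).edges)]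
        have hzero : ∑ e ∈ F.filter (fun e => e ∉ (d.Pa.dropUntil p hpa).edges), (t e - t' e) ≤ 0 := by
          refine sum_nonpos fun e he => ?_
          obtain ⟨heF, hedrop⟩ := mem_filter.1 he
          have heA := (mem_inter.1 heF).2
          have hmem := d.hA e heA
          rw [← d.Pa.take_spec hpa, Walk.edges_append, List.mem_append] at hmem
          have htake := hmem.resolve_right hedrop
          have hte : t e ≤ 0 := by
            induction e using Sym2.ind with
            | h x y =>
              have hx := Walk.fst_mem_support_of_mem_edges _ htake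
              have hy := Walk.snd_mem_support_of_mem_edges _ htake
              have hg := d.hPa.left d.ht hpa
              have hmx := hmin x (mem_biUnion.2 ⟨_, heF, Sym2.mem_toFinset.2 (Sym2.mem_mk_left x y)⟩)
              have hmy := hmin y (mem_biUnion.2 ⟨_, heF, Sym2.mem_toFinset.2 (Sym2.mem_mk_right x y)⟩)
              have hlx := level_eq d.ht hg hx
              have hly := level_eq d.ht hg hy
              -- the whole of the segment from `x` to `p` has weight `T x p = 0`
              have hx0 : passU t U x p ≤ 0 := by linarith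
              have hy0 : passU t U y p ≤ 0 := by linarith
              have hgx := hg.right d.ht hx
              have hgy := hg.right d.ht hy
              have he2 := htake
              rw [← (d.Pa.takeUntil p hpa).take_spec hx, Walk.edges_append, List.mem_append] at he2
              rcases he2 with he2 | he2
              · -- the edge lies before `x`, hence after `y`
                have hyx := Walk.snd_mem_support_of_mem_edges _ he2
                have h5 := level_eq d.ht (hg.left d.ht hx) hyx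
                have hgxl := hg.left d.ht hx
                have h6 : passU t U y x ≤ 0 := by
                  have := d.tri (hg.mem hy) (hg.mem (Walk.end_mem_support _)) (hg.mem hx)
                  have := passU_comm d.ht U p x
                  linarith
                obtain h7 := (hgxl.right d.ht hyx).wlen_eq_passU d.ht
                have h8 : s(x, y) ∈ (((d.Pa.takeUntil p hpa).takeUntil x hx).dropUntil y hyx).edges := by
                  have he3 := he2
                  rw [← ((d.Pa.takeUntil p hpa).takeUntil x hx).take_spec hyx, Walk.edges_append,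
                    List.mem_append] at he3
                  refine he3.resolve_left fun hc => ?_
                  have hxin := Walk.fst_mem_support_of_mem_edges _ hc
                  exact Walk.endpoint_notMem_support_takeUntil hgxl.isPath hyx
                    (fun hxy => by subst hxy; exact lattice.irrefl (Walk.adj_of_mem_edges _ hc)) hxin
                have h9 : t s(x, y) ≤ wlen t (((d.Pa.takeUntil p hpa).takeUntil x hx).dropUntil y hyx) :=
                  List.single_le_sum (fun _ hz => by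
                    obtain ⟨_, _, rfl⟩ := List.mem_map.1 hz; exact d.ht _) _ (List.mem_map_of_mem h8)
                linarith
              · have h9 : t s(x, y) ≤ wlen t ((d.Pa.takeUntil p hpa).dropUntil x hx) :=
                  List.single_le_sum (fun _ hz => by
                    obtain ⟨_, _, rfl⟩ := List.mem_map.1 hz; exact d.ht _) _ (List.mem_map_of_mem he2)
                rw [hgx.wlen_eq_passU d.ht] at h9
                linarith
          linarith [d.ht' e]
        have hle : ∑ e ∈ F.filter (fun e => e ∈ (d.Pa.dropUntil p hpa).edges), (t e - t' e) ≤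
            ∑ e ∈ (d.Pa.dropUntil p hpa).edges.toFinset ∩ d.A, (t e - t' e) :=
          sum_le_sum_of_subset_of_nonneg (fun e he => by
            simp only [hF, mem_filter, mem_inter, List.mem_toFinset] at he ⊢
            exact ⟨he.2, he.1.2⟩) fun e _ _ => sub_nonneg.2 (d.le e)
        linarith
      -- split `r` at `p`
      have hr1 := hr.takeUntil hpr
      have hsplit : wlen d.tI (r.takeUntil p hpr) + wlen t (r.dropUntil p hpr) - gain t t' F ≤
          wlen d.t₁ r := by
        have e1 : wlen d.tI (r.takeUntil p hpr) + wlen d.tI (r.dropUntil p hpr) = wlen d.tI r := by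
          rw [← wlen_append, Walk.take_spec]
        have e2 : wlen d.tI (r.dropUntil p hpr) = wlen t (r.dropUntil p hpr) := by
          rw [tI, wlen_mix (hr.dropUntil hpr)]
          have : (r.dropUntil p hpr).edges.toFinset ∩ d.I = ∅ := by
            refine eq_empty_of_forall_notMem fun e he => ?_
            simp only [mem_inter, List.mem_toFinset] at he
            exact hI e he.1 he.2
          rw [this]; simp [gain]
        have e3 : wlen d.t₁ r = wlen d.tI r - gain t t' F := by
          rw [tI, t₁, wlen_mix hr, wlen_mix hr]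
          have : r.edges.toFinset ∩ (d.I ∪ d.A) = r.edges.toFinset ∩ d.I ∪ F := inter_union_distrib_left ..
          rw [this, gain, gain, gain, sum_union]
          · ring
          · rw [Finset.disjoint_left]
            intro e he he'
            exact d.disjoint_AI (mem_inter.1 he').2 (mem_inter.1 he).2
        linarith
      have hw : passU d.t₁ U i a ≤ wlen d.tI (r.takeUntil p hpr) +
          wlen d.t₁ (d.Pa.dropUntil p hpa) := by
        refine (passU_le d.t₁_nonneg ((r.takeUntil p hpr).append (d.Pa.dropUntil p hpa))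
          fun w hw => ?_).trans ?_
        · rcases (Walk.mem_support_append_iff _ _).1 hw with h | h
          exacts [hrU w (r.support_takeUntil_subset_support hpr h),
            d.hPa.mem (d.Pa.support_dropUntil_subset_support hpa h)]
        · rw [wlen_append]
          exact add_le_add_left (wlen_le_wlen (mix_mono d.le subset_union_left) _) _
      have hdrop : passU t U p b ≤ wlen t (r.dropUntil p hpr) :=
        passU_le d.ht _ fun w hw => hrU w (r.support_dropUntil_subset_support hpr hw)
      have := d.tri d.memU_u (hrU p hpr) d.memU_b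
      have := level_eq d.ht d.hPa hpa
      have := hPA p hpa
      linarith
  · have h0 : F = ∅ := not_nonempty_iff_eq_empty.1 hne
    have e3 : wlen t r - d.G ≤ wlen d.t₁ r := by
      rw [t₁, wlen_mix hr, inter_union_distrib_left, show r.edges.toFinset ∩ d.A = ∅ from h0,
        union_empty]
      have := gain_mono d.le (inter_subset_right (s₁ := r.edges.toFinset) (s₂ := d.I))
      linarith [d.hG]
    have h2 : passU d.t₁ U i a ≤ passU t U i u + passU t U u a - d.G - d.H := by
      refine (passU_le d.t₁_nonneg (d.Pi.append d.Pa) fun w hw => ?_).trans ?_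
      · rcases (Walk.mem_support_append_iff _ _).1 hw with h | h
        exacts [d.hPi.mem h, d.hPa.mem h]
      · rw [wlen_append]
        have hP : wlen d.t₁ d.Pi ≤ passU t U i u - d.G := by
          refine (wlen_le_wlen (mix_mono d.le subset_union_left) _).trans ?_
          rw [wlen_mix d.hPi.isPath, d.hPi.wlen_eq_passU d.ht,
            inter_eq_right.2 (fun e he => List.mem_toFinset.2 (d.hI e he)), d.hG]
        have hQ : wlen d.t₁ d.Pa ≤ passU t U u a - d.H := by
          refine (wlen_le_wlen (mix_mono d.le subset_union_right) _).trans ?_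
          rw [wlen_mix d.hPa.isPath, d.hPa.wlen_eq_passU d.ht,
            inter_eq_right.2 (fun e he => List.mem_toFinset.2 (d.hA e he)), d.hH]
        linarith
    have := d.slack_b
    have := d.hH₀
    linarith

/-- The value `T₁ (i, v₀) - T (v, v₀)` at the start of the window. -/
def eStar : ℝ := passU d.t₁ U i d.v₀ - passU t U v d.v₀

/-- A route to `a` through a lowered `B` edge is expensive. -/
theorem via_B_ge {r : lattice.Walk i a} (hr : r.IsPath) (hrU : ∀ w ∈ r.support, w ∈ U)
    {e : Sym2 Z2} (her : e ∈ r.edges) (heB : e ∈ d.B) :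
    min (d.eStar - d.δ - d.θ + d.Va) (passU t U i u + passU t U u a - d.G + 1) ≤ wlen t' r := by
  obtain ⟨p, hpe, hpr⟩ := exists_mem_endpoints r her
  by_cases hIA : ∃ e' ∈ (r.dropUntil p hpr).edges, e' ∈ d.I ∨ e' ∈ d.A
  · obtain ⟨e', he', hc⟩ := hIA
    refine (min_le_right _ _).trans ?_
    have h1 := d.costly (Or.inl rfl) hrU hpr he' hpe (Or.inr ⟨heB, hc⟩)
    have h2 := d.wlen_t'_ge hr
    have := d.G₀_nonneg
    have := d.Γ_nonneg
    have := d.G_nonneg
    have := d.H_nonneg
    have := d.θ_nonneg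
    have := d.hΛ
    linarith
  · push Not at hIA
    by_cases he₀ : d.e₀ ∈ (r.dropUntil p hpr).edges
    · -- back to the neighbourhood of `u`
      refine (min_le_right _ _).trans ?_
      have hw₀r := mem_support_of_mem _ he₀ d.hw₀
      have h1 : passU t U i p + (passU t U p d.w₀ + passU t U d.w₀ a) ≤ wlen t r := by
        conv_rhs => rw [← r.take_spec hpr, wlen_append]
        refine add_le_add
          (passU_le d.ht _ fun z hz => hrU z (r.support_takeUntil_subset_support hpr hz)) ?_
        exact take_spec_le d.ht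
          (fun z hz => hrU z (r.support_dropUntil_subset_support hpr hz)) hw₀r
      have h2 := d.wlen_t'_ge hr
      have := d.far_B heB hpe
      have := d.levB e heB p hpe
      have := d.tri d.memU_v d.memU_u (hrU p hpr)
      have := d.tri d.memU_u d.hw₀U (hrU p hpr)
      have := d.tri d.memU_u d.hw₀U d.memU_a
      have := passU_comm d.ht U u v
      have := passU_comm d.ht U p d.w₀
      have := d.near₀
      have := d.uv
      have := d.G₀_nonneg
      have := d.Γ_nonneg
      have := d.G_nonneg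
      have := d.H_nonneg
      have := d.θ_nonneg
      have := d.hℓ
      have := d.hΛ
      linarith
    refine (min_le_left _ _).trans ?_
    have hpb : p ∈ d.Pb.support := d.memB heB hpe
    have e1 : wlen d.t₁ r - d.θ ≤ wlen t' r := by
      conv_rhs => rw [d.wlen_t' hr]
      rw [t₁, wlen_mix hr, inter_union_distrib_left (s := r.edges.toFinset) (t := d.I ∪ d.A)]
      have := gain_union_le d.le (r.edges.toFinset ∩ (d.I ∪ d.A)) (r.edges.toFinset ∩ d.B)
      have := gain_mono d.le (inter_subset_right (s₁ := r.edges.toFinset) (s₂ := d.B))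
      linarith [d.hθ]
    have e2 : wlen d.t₁ r = wlen d.t₁ (r.takeUntil p hpr) + wlen t (r.dropUntil p hpr) := by
      conv_lhs => rw [← r.take_spec hpr, wlen_append]
      congr 1
      rw [t₁, wlen_mix (hr.dropUntil hpr)]
      have : (r.dropUntil p hpr).edges.toFinset ∩ (d.I ∪ d.A) = ∅ := by
        refine eq_empty_of_forall_notMem fun e he => ?_
        simp only [mem_inter, mem_union, List.mem_toFinset] at he
        exact he.2.elim (hIA e he.1).1 (hIA e he.1).2
      rw [this]; simp [gain]
    have h1 : passU d.t₁ U i p ≤ wlen d.t₁ (r.takeUntil p hpr) :=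
      passU_le d.t₁_nonneg _ fun w hw => hrU w (r.support_takeUntil_subset_support hpr hw)
    have h2 : d.Va ≤ passU t U v p + wlen t (r.dropUntil p hpr) :=
      d.hVa p hpb _ (fun w hw => hrU w (r.support_dropUntil_subset_support hpr hw)) he₀
    -- `T₁ (i, ·) - T (v, ·)` decreases along `Pb`
    have hv₁U := d.hPb.mem d.hv₁
    have h4 : passU d.t₁ U i d.v₁ - passU t U v d.v₁ ≤ passU d.t₁ U i p - passU t U v p := by
      have hle := d.hv₁B e heB p hpe
      have ha := passU_triangle d.t₁_nonneg (d.conn i d.memU_i p (hrU p hpr))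
        (d.conn p (hrU p hpr) d.v₁ hv₁U)
      have hb : passU d.t₁ U p d.v₁ ≤ passU t U p d.v₁ :=
        le_passU (d.conn p (hrU p hpr) d.v₁ hv₁U) fun q hq =>
          (passU_le d.t₁_nonneg q hq).trans (wlen_le_wlen (mix_le d.le _) q)
      have hl1 := level_eq d.ht d.hPb d.hv₁
      have hl2 := level_eq d.ht d.hPb hpb
      have hmem : p ∈ (d.Pb.takeUntil d.v₁ d.hv₁).support ∨
          p ∈ (d.Pb.dropUntil d.v₁ d.hv₁).support :=
        (Walk.mem_support_append_iff _ _).1 (by rw [d.Pb.take_spec]; exact hpb)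
      rcases hmem with hm | hm
      · have := level_eq d.ht (d.hPb.left d.ht d.hv₁) hm
        linarith
      · have := level_eq d.ht (d.hPb.right d.ht d.hv₁) hm
        have := passU_comm d.ht U d.v₁ p
        linarith
    have := d.flat
    simp only [eStar, t₁] at h1 h4 e1 e2 ⊢
    linarith

/-- The route to `b` through the window. -/
theorem passU'_b_le : passU t' U i b ≤ d.eStar + passU t U v b - d.θ := by
  have hd := d.hPb.right d.ht d.hv₀
  have h1 : passU t' U i b - wlen t' (d.Pb.dropUntil d.v₀ d.hv₀) ≤ passU d.t₁ U i d.v₀ := by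
    refine le_passU (d.conn i d.memU_i d.v₀ (d.hPb.mem d.hv₀)) fun q hq => ?_
    have := passU_le d.ht' (q.append (d.Pb.dropUntil d.v₀ d.hv₀)) (U := U) fun w hw => by
      rcases (Walk.mem_support_append_iff _ _).1 hw with h | h
      exacts [hq w h, d.hPb.mem (d.Pb.support_dropUntil_subset_support d.hv₀ h)]
    rw [wlen_append] at this
    have h2 : wlen t' q ≤ wlen d.t₁ q := wlen_le_wlen (fun e => le_mix d.le _ e) q
    linarith
  have h2 : wlen t' (d.Pb.dropUntil d.v₀ d.hv₀) ≤ passU t U d.v₀ b - d.θ := by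
    rw [d.wlen_t' hd.isPath, hd.wlen_eq_passU d.ht, ← d.hθ]
    gcongr
    refine gain_mono d.le fun e he => ?_
    simp only [mem_inter, mem_union, List.mem_toFinset]
    exact ⟨d.hv₀B e he, Or.inr he⟩
  have := level_eq d.ht d.hPb d.hv₀
  simp only [eStar]
  linarith

/-- The geodesic `i → u` survives the lowering. -/
theorem Pi_geo' : IsGeoU t' U d.Pi := by
  refine ⟨d.hPi.isPath, d.hPi.2.1, fun r hr hrU => ?_⟩
  have hsum : wlen t' d.Pi ≤ passU t U i u - d.G := by
    rw [d.wlen_t' d.hPi.isPath, d.hPi.wlen_eq_passU d.ht, ← d.hG]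
    gcongr
    refine gain_mono d.le fun e he => ?_
    simp only [mem_inter, mem_union, List.mem_toFinset]
    exact ⟨d.hI e he, Or.inl (Or.inl he)⟩
  have hr0 := passU_le d.ht r hrU
  by_cases hAB : ∃ e ∈ r.edges, e ∈ d.A ∨ e ∈ d.B
  · obtain ⟨e, her, hc⟩ := hAB
    obtain ⟨p, hpe, hpr⟩ := exists_mem_endpoints r her
    have h1 := take_spec_le d.ht hrU hpr
    have h2 := d.wlen_t'_ge hr
    have := passU_comm d.ht U p u
    have := d.G₀_nonneg
    have := d.Γ_nonneg
    have := d.G_nonneg
    have := d.H_nonneg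
    have := d.θ_nonneg
    have := d.hΛ
    have := d.hℓ
    rcases hc with hA | hB
    · have := d.far_A hA hpe
      have := (d.levA e hA p hpe).1
      linarith
    · have := d.far_B hB hpe
      have := d.levB e hB p hpe
      have := d.tri d.memU_v d.memU_u (hrU p hpr)
      have := passU_comm d.ht U u v
      have := d.uv
      linarith
  · push Not at hAB
    refine hsum.trans ?_
    conv_rhs => rw [d.wlen_t' hr]
    have : r.edges.toFinset ∩ (d.I ∪ d.A ∪ d.B) ⊆ d.I := fun e he => by
      simp only [mem_inter, mem_union, List.mem_toFinset] at he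
      rcases he.2 with (h | h) | h
      exacts [h, ((hAB e he.1).1 h).elim, ((hAB e he.1).2 h).elim]
    have := gain_mono d.le this
    linarith [d.hG]

/-- A geodesic to either target uses the `I` segment. -/
theorem uses_I {x : Z2} (hx : x = a ∨ x = b) {Q : lattice.Walk i x} (hQ : IsGeoU t' U Q) :
    ∃ e ∈ Q.edges, e ∈ d.I := by
  by_contra hcon
  push Not at hcon
  have h1 : wlen t' Q ≤ passU t U i u + passU t U u x - d.G := by
    rw [hQ.wlen_eq_passU d.ht']
    exact (d.passU'_le₁ d.memU_i (d.memU_x hx)).trans (d.passU₁_le_via hx)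
  have h2 : wlen t Q - (d.H + d.θ) ≤ wlen t' Q := by
    conv_rhs => rw [d.wlen_t' hQ.isPath]
    have : Q.edges.toFinset ∩ (d.I ∪ d.A ∪ d.B) ⊆ d.A ∪ d.B := fun e he => by
      simp only [mem_inter, mem_union, List.mem_toFinset] at he ⊢
      rcases he.2 with (h | h) | h
      exacts [(hcon e he.1 h).elim, Or.inl h, Or.inr h]
    have := gain_mono d.le this
    have := gain_union_le d.le d.A d.B
    linarith [d.hH, d.hθ]
  have h3 : passU t U i x ≤ wlen t Q := passU_le d.ht Q hQ.2.1
  have := d.slack hx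
  have := d.hGH
  linarith

/-- **Branch lemma, deterministic core.** -/
theorem branch (hu : PathUnique t')
    (hlow : d.eStar + passU t U v b - d.θ < passU d.t₁ U i b)
    (hhigh : passU d.t₁ U i a < d.eStar - d.δ - d.θ + d.Va)
    {Qa : lattice.Walk i a} (hQa : IsGeoU t' U Qa) {Qb : lattice.Walk i b}
    (hQb : IsGeoU t' U Qb) :
    (∀ e ∈ Qa.edges, e ∉ d.B) ∧ (∃ e ∈ Qb.edges, e ∈ d.B) ∧
      ∃ q, q ∈ Qa.support ∧ q ∈ Qb.support ∧ ∃ e ∈ d.I, q ∈ e := by
  refine ⟨?_, ?_, ?_⟩
  · intro e he heB
    have h1 := d.via_B_ge hQa.isPath hQa.2.1 he heB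
    have h2 : wlen t' Qa ≤ passU d.t₁ U i a := by
      rw [hQa.wlen_eq_passU d.ht']
      exact d.passU'_le₁ d.memU_i d.memU_a
    have h3 := d.passU₁_le_via (x := a) (Or.inl rfl)
    rcases min_le_iff.1 (h1.trans h2) with h | h <;> linarith
  · by_contra hcon
    push Not at hcon
    have h1 := d.passU'_b_le
    have h2 : wlen d.t₁ Qb ≤ wlen t' Qb := by
      conv_rhs => rw [d.wlen_t' hQb.isPath]
      rw [t₁, wlen_mix hQb.isPath]
      have : Qb.edges.toFinset ∩ (d.I ∪ d.A ∪ d.B) ⊆ Qb.edges.toFinset ∩ (d.I ∪ d.A) := fun e he => by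
        simp only [mem_inter, mem_union, List.mem_toFinset] at he ⊢
        rcases he.2 with h | h
        exacts [⟨he.1, h⟩, (hcon e he.1 h).elim]
      have := gain_mono d.le this
      linarith
    have h3 := passU_le d.t₁_nonneg Qb (U := U) hQb.2.1
    rw [hQb.wlen_eq_passU d.ht'] at h2
    linarith
  · obtain ⟨ea, hea, heaI⟩ := d.uses_I (Or.inl rfl) hQa
    obtain ⟨eb, heb, hebI⟩ := d.uses_I (Or.inr rfl) hQb
    obtain ⟨qa, hqa, hqaQ⟩ := exists_mem_endpoints Qa hea
    obtain ⟨qb, hqb, hqbQ⟩ := exists_mem_endpoints Qb heb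
    have hqaP := d.memI heaI hqa
    have hqbP := d.memI hebI hqb
    have hg := d.Pi_geo'
    have hpre : ∀ (w : Z2) (hw : w ∈ d.Pi.support),
        (d.Pi.takeUntil w hw).support <+: d.Pi.support := fun w hw =>
      ⟨(d.Pi.dropUntil w hw).support.tail, by rw [← Walk.support_append, d.Pi.take_spec]⟩
    rcases List.prefix_or_prefix_of_prefix (hpre qa hqaP) (hpre qb hqbP) with h | h
    · refine ⟨qa, hqaQ, ?_, ea, heaI, hqa⟩
      have := (hQb.left d.ht' hqbQ).unique hu (hg.left d.ht' hqbP)
      exact Qb.support_takeUntil_subset_support hqbQ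
        (this ▸ h.subset (Walk.end_mem_support _))
    · refine ⟨qb, ?_, hqbQ, eb, hebI, hqb⟩
      have := (hQa.left d.ht' hqaQ).unique hu (hg.left d.ht' hqaP)
      exact Qa.support_takeUntil_subset_support hqaQ
        (this ▸ h.subset (Walk.end_mem_support _))

end BranchData

end

end Vale.P158
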