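import Vale.Agent.P158.Branch.A1
import Vale.Agent.P158.Branch.A2

/-!
# P158, part A: branch points are rare, for every atomless law

Module A1 (`Branch/A1.lean`) gives the one-edge bound needed by A2 (`Branch/A2.lean`).
-/

namespace Vale.P158

open MeasureTheory SimpleGraph Finset
open scoped ENNReal NNReal

noncomputable section

variable (μ : Measure ℝ) [IsProbabilityMeasure μ] [NullSingletonClass μ]

/-- The one-edge bound holds for every atomless law on `[0, ∞)`. -/
theorem oneEdgeBound (hμ : ∀ᵐ s ∂μ, 0 ≤ s) : OneEdgeBound μ := by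
  intro g hg η hη K
  obtain ⟨C, L, hC, -, h⟩ := Branch.margin_le_isBranch μ hμ (K + 1) (g := g / 4) (by positivity)
    (η := ENNReal.ofReal η) (ENNReal.ofReal_pos.2 hη)
  refine ⟨C.toNNReal, L, fun M y z z' hy hadj hzM => ?_⟩
  rw [ENNReal.coe_toNNReal hC]
  have hins : ∀ x, supDist z x ≤ L → (Chain.sq M).Mem x ∧ ¬(Chain.sq M).Bdry x := fun x hx => by
    have hx0 : supDist 0 x ≤ M := by
      simp only [supDist, Prod.fst_zero, Prod.snd_zero] at hx hzM ⊢
      omega
    exact ⟨A2.mem_iff.2 (by omega), fun hb => by rw [A2.bdry_iff] at hb; omega⟩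
  refine le_trans (measure_mono_ae ?_) (h (Chain.sq M) z hins y hy s(z, z') (Sym2.mem_mk_left z z'))
  filter_upwards [Branch.ae_nonneg μ hμ] with t ht hfar
  obtain ⟨x, p, hx, hp, hfp, hmarg, x', p', hx', hp', hfp', u, hu, v, hv, huv⟩ := hfar
  refine ⟨x, hx, x', hx', p, hp, hfp, fun q hq hqf => ?_, p', hp', hfp', v, hv, ?_⟩
  · have h1 := hmarg q.bypass q.bypass_isPath
      (fun w hw => hq w (q.support_bypass_subset_support hw))
      fun hm => hqf (q.edges_bypass_subset_edges hm)
    have h2 : wlen t p = passU t {w | (Chain.sq M).Mem w} y x := hp.wlen_eq_passU ht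
    linarith [wlen_bypass_le ht q]
  · rcases Sym2.mem_iff.1 hu with rfl | rfl
    · omega
    · have h1 := supDist_step (z := z) hadj
      simp only [supDist] at h1 huv ⊢
      omega

/-- **Part A.** Branch points are rare, for every atomless law. -/
theorem branchRare (hμ : ∀ᵐ s ∂μ, 0 ≤ s) : Chain.BranchRare μ :=
  branchRare_of_oneEdge μ hμ (oneEdgeBound μ hμ)

end

end Vale.P158
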