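import Vale.Agent.P158.Branch.Walks

/-!
# P158, branch lemma: choosing the lowered edges

If, in a typical configuration, one geodesic from the root passes through an edge with a margin and
another one passes near by without using it, then lowering some of the weights of a fixed box into
their cells produces a branch vertex in the box.
-/

namespace Vale.P158

open SimpleGraph Finset

noncomputable section

namespace Branch

/-- Two geodesics from `y` to leaves, split at a vertex near `s`. -/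
def BrEvent (t : Sym2 Z2 → ℝ) (U : Set Z2) (y : Z2) (S : Set Z2) (s : Z2) (L : ℕ) : Prop :=
  ∃ w a b : Z2, ∃ (P : lattice.Walk y a) (Q : lattice.Walk y b) (hP : w ∈ P.support)
    (hQ : w ∈ Q.support), a ∈ S ∧ b ∈ S ∧ a ≠ b ∧ IsGeoU t U P ∧ IsGeoU t U Q ∧
      supDist s w ≤ L ∧
      ∀ z, z ∈ (P.dropUntil w hP).support → z ∈ (Q.dropUntil w hQ).support → z = w

/-- One geodesic from `y` uses the edge `e` at `s` with a margin `4 g`; another one avoids it and
comes within `K` of `s`. -/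
def MarginEvent (t : Sym2 Z2 → ℝ) (U : Set Z2) (y : Z2) (S : Set Z2) (e : Sym2 Z2) (s : Z2)
    (K : ℕ) (g : ℝ) : Prop :=
  ∃ x ∈ S, ∃ x' ∈ S, ∃ P : lattice.Walk y x, IsGeoU t U P ∧ e ∈ P.edges ∧
    (∀ q : lattice.Walk y x, (∀ w ∈ q.support, w ∈ U) → e ∉ q.edges →
      passU t U y x + 4 * g ≤ wlen t q) ∧
    ∃ P' : lattice.Walk y x', IsGeoU t U P' ∧ e ∉ P'.edges ∧ ∃ v ∈ P'.support, supDist s v ≤ K

/-- The constants of the branch lemma. -/
structure Scales {μ : MeasureTheory.Measure ℝ} {g : ℝ} (c : Cells μ g) where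
  K : ℕ
  Γ : ℝ
  n₁ : ℕ
  kA : ℕ
  kB : ℕ
  kI : ℕ
  n : ℕ
  rA : ℕ
  ℓ : ℝ
  m : ℕ
  nB : ℕ → ℕ
  R : ℕ
  ΓR : ℝ
  n₂ : ℕ
  L : ℕ
  hkA : 2 * Γ ≤ c.dmin * kA
  hkB : 2 * Γ + g * kA < c.dmin * kB
  hkI : 2 * Γ + g * kA + (2 * Γ + g * kA + g) < c.dmin * kI
  hn₁ : n₁ ≤ n
  hn : 6 * Γ + g * kI + g * kA + (2 * Γ + g * kA + g) + 1 ≤ c.dmin / 2 * n
  hrA : K + 2 * (n + kA) ≤ rA
  hnB₁ : n₁ ≤ nB 0
  hnB : ℓ + (6 * Γ + g * kI + g * kA + (2 * Γ + g * kA + g) + 1) ≤ c.dmin / 2 * nB 0
  hnBs : ∀ j, nB (j + 1) = 2 * (nB j + kB)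
  hm : 2 * Γ + g * kA < g * m
  hRI : K + 2 * (n + kI) ≤ R
  hRA : rA ≤ R
  hRB : K + nB m ≤ R
  hL : ∀ len : ℕ, n₂ ≤ len →
    c.dmin / 2 * len ≤ ΓR + g * kI + g * kA + (2 * Γ + g * kA + g) → R + len ≤ L
  hL₂ : R + n₂ ≤ L

variable {μ : MeasureTheory.Measure ℝ} {g : ℝ} {c : Cells μ g}

/-- A typical configuration around `s`. -/
structure Good (σ : Scales c) (s : Z2) (t : Sym2 Z2 → ℝ) : Prop where
  nonneg : ∀ e, 0 ≤ t e
  sumK : ∑ e ∈ edgeBox s σ.K, t e ≤ σ.Γ
  sumA : ∑ e ∈ edgeBox s σ.rA, t e ≤ σ.ℓ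
  sumR : ∑ e ∈ edgeBox s σ.R, t e ≤ σ.ΓR
  lowK : ∀ x ∈ boxSet s σ.K, LongLow c t x σ.n₁
  lowR : ∀ x ∈ boxSet s σ.R, LongLow c t x σ.n₂

namespace Scales

variable (σ : Scales c)

lemma nB_mono : Monotone σ.nB :=
  monotone_nat_of_le_succ fun j => by rw [σ.hnBs j]; omega

lemma K_le_R : σ.K ≤ σ.R := by have := σ.hRA; have := σ.hrA; omega

lemma R_le_L : σ.R ≤ σ.L := by have := σ.hL₂; omega

end Scales

/-- The vertex after which two geodesics with a common vertex split. -/
lemma exists_split {t : Sym2 Z2 → ℝ} {U : Set Z2} (ht : ∀ e, 0 ≤ t e) (hu : PathUnique t)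
    {y a b : Z2} {Qa : lattice.Walk y a} (hQa : IsGeoU t U Qa) {Qb : lattice.Walk y b}
    (hQb : IsGeoU t U Qb) {q : Z2} (hqa : q ∈ Qa.support) (hqb : q ∈ Qb.support)
    {f : Sym2 Z2} (hfb : f ∈ Qb.edges) (hfa : f ∉ Qa.edges) :
    ∃ j m : ℕ, ∃ (ha : Qb.getVert j ∈ Qa.support), j ≤ Qb.length ∧ m < Qb.length ∧
      f = s(Qb.getVert m, Qb.getVert (m + 1)) ∧
      (∃ jq, jq ≤ j ∧ Qb.getVert jq = q) ∧ j ≤ m ∧
      ∀ z, z ∈ (Qa.dropUntil (Qb.getVert j) ha).support →
        z ∈ (Qb.dropUntil (Qb.getVert j) (Qb.getVert_mem_support j)).support → z = Qb.getVert j := by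
  classical
  set j := Nat.findGreatest (fun i => Qb.getVert i ∈ Qa.support) Qb.length with hj
  obtain ⟨jq, hjq, hjq'⟩ := Walk.mem_support_iff_exists_getVert.1 hqb
  have hjspec : Qb.getVert j ∈ Qa.support :=
    Nat.findGreatest_spec (P := fun i => Qb.getVert i ∈ Qa.support) hjq' (hjq ▸ hqa)
  have hjle : j ≤ Qb.length := Nat.findGreatest_le _
  have hmax : ∀ i, i ≤ Qb.length → Qb.getVert i ∈ Qa.support → i ≤ j :=
    fun i hi h => Nat.le_findGreatest hi h
  obtain ⟨m, hm, hfm⟩ := exists_index Qb hfb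
  refine ⟨j, m, hjspec, hjle, hm, hfm, ⟨jq, hmax jq hjq' (hjq ▸ hqa), hjq⟩, ?_, ?_⟩
  · by_contra hlt
    push Not at hlt
    have hvy : y ∈ Qb.support := Qb.start_mem_support
    have h := (hQb.segment_subset ht hu hQa hvy (w := Qb.getVert j)
      (by rw [Walk.dropUntil_first]; exact Qb.getVert_mem_support j) Qa.start_mem_support hjspec).2
    simp only [Walk.dropUntil_first] at h
    refine hfa (h f ?_)
    rw [edges_takeUntil_getVert hQb.isPath hjle, hfm]
    exact mem_take_edges Qb hlt hm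
  · intro z hza hzb
    obtain ⟨k, hk, hk'⟩ := Walk.mem_support_iff_exists_getVert.1 hzb
    have hlen := length_takeUntil_getVert hQb.isPath hjle
    have hsum := congrArg Walk.length (Qb.take_spec (Qb.getVert_mem_support j))
    rw [Walk.length_append, hlen] at hsum
    have hget : Qb.getVert (j + k) = z := by
      rcases Nat.eq_zero_or_pos k with rfl | hk0
      · simpa using hk
      conv_lhs => rw [← Qb.take_spec (Qb.getVert_mem_support j)]
      rw [Walk.getVert_append, hlen, if_neg (by omega), Nat.add_sub_cancel_left]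
      exact hk
    have := hmax (j + k) (by omega)
      (hget ▸ Qa.support_dropUntil_subset_support hjspec hza)
    rw [← hget, show k = 0 by omega, Nat.add_zero]

/-- **Branch lemma, choice of the lowered edges.** -/
theorem select (σ : Scales c) (hg : 0 < g) {s : Z2} {t : Sym2 Z2 → ℝ} (ht : Good σ s t)
    {U : Set Z2} (hUf : U.Finite) (hconn : ∀ x ∈ U, ∀ y ∈ U, JoinedIn U x y)
    (hbox : ∀ x, supDist s x ≤ σ.L → x ∈ U) {y : Z2} (hy : σ.L < supDist s y)
    {S : Set Z2} (hS : ∀ x ∈ S, σ.L < supDist s x) {e₀ : Sym2 Z2} (hs : s ∈ e₀)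
    (hev : MarginEvent t U y S e₀ s σ.K g) {ξ : Sym2 Z2 → ℝ}
    (hξ : ∀ e ∈ edgeBox s σ.R, t e ∈ c.low → ∃ j, t e ∈ c.U j ∧ ξ e ∈ c.L j) :
    ∃ F ⊆ edgeBox s σ.R, BrEvent (mix t ξ F) U y S s σ.L ∨ ¬PathUnique (mix t ξ F) := by
  classical
  obtain ⟨x, hxS, x', hx'S, P, hP, heP, hmarg, P', hP', heP', v, hvP', hvK⟩ := hev
  have t0 := ht.nonneg
  have hsP : s ∈ P.support := mem_support_of_mem P heP hs
  have hKR := σ.K_le_R
  have hRL := σ.R_le_L
  have hs0 : supDist s s = 0 := by simp [supDist]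
  have hboxK : ∀ w, supDist s w ≤ σ.K → w ∈ U := fun w hw => hbox w (by omega)
  have hboxA : ∀ w, supDist s w ≤ σ.rA → w ∈ U := fun w hw => hbox w (by have := σ.hRA; omega)
  have huv : passU t U s v ≤ σ.Γ := (passU_le_box t0 hboxK (by omega) hvK).trans ht.sumK
  have hΓ : 0 ≤ σ.Γ := (passU_nonneg t0 U s v).trans huv
  -- lowering a lowerable edge of the box
  have hlowd : ∀ e ∈ edgeBox s σ.R, t e ∈ c.low →
      c.dmin ≤ t e - ξ e ∧ t e - ξ e ≤ g ∧ 0 ≤ ξ e := fun e he hl => by
    obtain ⟨j, hj, hj'⟩ := hξ e he hl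
    exact ⟨(c.drop j _ hj _ hj').1, (c.drop j _ hj _ hj').2, c.L_nonneg j _ hj'⟩
  -- the three geodesics
  set Pi := P.takeUntil s hsP
  set Pa := P.dropUntil s hsP
  set Pb := P'.dropUntil v hvP'
  have hPi : IsGeoU t U Pi := hP.left t0 hsP
  have hPa : IsGeoU t U Pa := hP.right t0 hsP
  have hPb : IsGeoU t U Pb := hP'.right t0 hvP'
  have hPr := hPi.reverse
  have hKs : s ∈ boxSet s σ.K := mem_boxSet.2 (by omega)
  have hlongI : 2 * (σ.n + σ.kI) ≤ Pi.reverse.length := by
    have := supDist_le_length s Pi.reverse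
    have := σ.hRI
    omega
  have hlongA : 2 * (σ.n + σ.kA) ≤ Pa.length := by
    have := supDist_le_length s Pa
    have := hS x hxS
    have := σ.hrA
    have := σ.hRA
    omega
  have hn₁ := σ.hn₁
  obtain ⟨EI, hEIc, hEI⟩ := exists_window hPr.isPath (ht.lowK s hKs) (n := σ.n) (k := σ.kI)
    (by omega) hlongI
  obtain ⟨EA, hEAc, hEA⟩ := exists_window hPa.isPath (ht.lowK s hKs) (n := σ.n) (k := σ.kA)
    (by omega) hlongA
  have hdistI : ∀ e ∈ EI, ∀ w ∈ e, ∃ i, σ.n ≤ i ∧ i ≤ 2 * (σ.n + σ.kI) ∧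
      w = Pi.reverse.getVert i := fun e he w hw => by
    obtain ⟨-, i, h1, h2, h3, rfl⟩ := hEI e he
    rcases Sym2.mem_iff.1 hw with rfl | rfl
    exacts [⟨i, h1, h2.le, rfl⟩, ⟨i + 1, by omega, h2, rfl⟩]
  have hdistA : ∀ e ∈ EA, ∀ w ∈ e, ∃ i, σ.n ≤ i ∧ i ≤ 2 * (σ.n + σ.kA) ∧
      w = Pa.getVert i := fun e he w hw => by
    obtain ⟨-, i, h1, h2, h3, rfl⟩ := hEA e he
    rcases Sym2.mem_iff.1 hw with rfl | rfl
    exacts [⟨i, h1, h2.le, rfl⟩, ⟨i + 1, by omega, h2, rfl⟩]
  have hnearI : ∀ e ∈ EI, ∀ w ∈ e, supDist s w ≤ σ.R := fun e he w hw => by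
    obtain ⟨i, -, h2, rfl⟩ := hdistI e he w hw
    have := supDist_getVert s Pi.reverse i
    have := σ.hRI
    omega
  have hnearA : ∀ e ∈ EA, ∀ w ∈ e, supDist s w ≤ σ.rA := fun e he w hw => by
    obtain ⟨i, -, h2, rfl⟩ := hdistA e he w hw
    have := supDist_getVert s Pa i
    have := σ.hrA
    omega
  have hEIR : EI ⊆ edgeBox s σ.R := fun e he => mem_edgeBox (hnearI e he)
  have hEAR : EA ⊆ edgeBox s σ.R := fun e he =>
    mem_edgeBox fun w hw => (hnearA e he w hw).trans σ.hRA
  set t₁ := mix t ξ (EI ∪ EA) with ht₁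
  have ht₁0 : ∀ e, 0 ≤ t₁ e := fun e => by
    simp only [ht₁, mix]
    split_ifs with h
    · rcases mem_union.1 h with h | h
      exacts [(hlowd e (hEIR h) (hEI e h).1).2.2, (hlowd e (hEAR h) (hEA e h).1).2.2]
    · exact t0 e
  have ht₁le : ∀ e, t₁ e ≤ t e := fun e => by
    simp only [ht₁, mix]
    split_ifs with h
    · rcases mem_union.1 h with h | h
      · have := (hlowd e (hEIR h) (hEI e h).1).1; linarith [c.dmin_pos]
      · have := (hlowd e (hEAR h) (hEA e h).1).1; linarith [c.dmin_pos]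
    · exact le_rfl
  have hgainEI : c.dmin * σ.kI ≤ gain t ξ EI ∧ gain t ξ EI ≤ g * σ.kI := by
    constructor
    · have := card_nsmul_le_sum EI (fun e => t e - ξ e) c.dmin
        (fun e he => (hlowd e (hEIR he) (hEI e he).1).1)
      rw [hEIc, nsmul_eq_mul] at this
      exact (mul_comm _ _).trans_le this
    · have := sum_le_card_nsmul EI (fun e => t e - ξ e) g
        (fun e he => (hlowd e (hEIR he) (hEI e he).1).2.1)
      rw [hEIc, nsmul_eq_mul] at this
      exact this.trans_eq (mul_comm _ _)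
  have hgainEA : c.dmin * σ.kA ≤ gain t ξ EA ∧ gain t ξ EA ≤ g * σ.kA := by
    constructor
    · have := card_nsmul_le_sum EA (fun e => t e - ξ e) c.dmin
        (fun e he => (hlowd e (hEAR he) (hEA e he).1).1)
      rw [hEAc, nsmul_eq_mul] at this
      exact (mul_comm _ _).trans_le this
    · have := sum_le_card_nsmul EA (fun e => t e - ξ e) g
        (fun e he => (hlowd e (hEAR he) (hEA e he).1).2.1)
      rw [hEAc, nsmul_eq_mul] at this
      exact this.trans_eq (mul_comm _ _)
  set G := gain t ξ EI with hG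
  set H := gain t ξ EA with hH
  -- `T₁ (y, ·) - T (v, ·)` along `Pb`
  have hyU : y ∈ U := hP.mem P.start_mem_support
  have hsU : s ∈ U := hP.mem hsP
  have hvU : v ∈ U := hP'.mem hvP'
  have hx'U : x' ∈ U := hP'.mem P'.end_mem_support
  have hgainle : gain t ξ (EI ∪ EA) ≤ G + H := by
    have hd : ∀ e ∈ EI ∩ EA, 0 ≤ t e - ξ e := fun e he => by
      obtain ⟨h1, -⟩ := mem_inter.1 he
      have := (hlowd e (hEIR h1) (hEI e h1).1).1
      linarith [c.dmin_pos]
    have := sum_nonneg hd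
    simp only [hG, hH, gain]
    rw [← sum_union_inter (s₁ := EI)]
    linarith
  have hT₁lo : ∀ w ∈ U, passU t U y w - G - H ≤ passU t₁ U y w := fun w hw =>
    le_passU (hconn y hyU w hw) fun q hq => by
      refine le_trans ?_ (wlen_bypass_le ht₁0 q)
      rw [ht₁, wlen_mix q.bypass_isPath]
      have h1 := passU_le t0 q.bypass (U := U) fun z hz => hq z (q.support_bypass_subset_support hz)
      have h2 : gain t ξ (q.bypass.edges.toFinset ∩ (EI ∪ EA)) ≤ gain t ξ (EI ∪ EA) :=
        sum_le_sum_of_subset_of_nonneg inter_subset_right fun e he _ => by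
          rcases mem_union.1 he with h | h
          · have := (hlowd e (hEIR h) (hEI e h).1).1; linarith [c.dmin_pos]
          · have := (hlowd e (hEAR h) (hEA e h).1).1; linarith [c.dmin_pos]
      linarith
  have hT₁hi : ∀ w ∈ U, passU t₁ U y w ≤ passU t U y s - G + passU t U s w := fun w hw => by
    have h1 := passU_triangle ht₁0 (hconn y hyU s hsU) (hconn s hsU w hw)
    have h2 : passU t₁ U s w ≤ passU t U s w :=
      le_passU (hconn s hsU w hw) fun q hq =>
        (passU_le ht₁0 q hq).trans (wlen_le_wlen ht₁le q)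
    have h3 : passU t₁ U y s ≤ passU t U y s - G := by
      refine (passU_le ht₁0 Pi hPi.2.1).trans ?_
      rw [ht₁, wlen_mix hPi.isPath, hPi.wlen_eq_passU t0]
      have : gain t ξ EI ≤ gain t ξ (Pi.edges.toFinset ∩ (EI ∪ EA)) := by
        refine sum_le_sum_of_subset_of_nonneg (fun e he => ?_) fun e he _ => ?_
        · obtain ⟨-, i, -, -, h3, rfl⟩ := hEI e he
          have := edge_mem_of_lt Pi.reverse h3
          rw [Walk.edges_reverse, List.mem_reverse] at this
          exact mem_inter.2 ⟨List.mem_toFinset.2 this, mem_union_left _ he⟩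
        · rcases mem_union.1 (mem_inter.1 he).2 with h | h
          · have := (hlowd e (hEIR h) (hEI e h).1).1; linarith [c.dmin_pos]
          · have := (hlowd e (hEAR h) (hEA e h).1).1; linarith [c.dmin_pos]
      linarith
    linarith
  set E : ℕ → ℝ := fun i =>
    passU t₁ U y (Pb.getVert (σ.nB i)) - passU t U v (Pb.getVert (σ.nB i)) with hE
  have hmemb : ∀ i, Pb.getVert i ∈ U := fun i => hPb.mem (Pb.getVert_mem_support i)
  have htri : ∀ {p q r : Z2}, p ∈ U → q ∈ U → r ∈ U →
      passU t U p r ≤ passU t U p q + passU t U q r := fun hp hq hr =>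
    passU_triangle t0 (hconn _ hp _ hq) (hconn _ hq _ hr)
  have hsplitb : ∀ i, passU t U y (Pb.getVert i) =
      passU t U y v + passU t U v (Pb.getVert i) := fun i => by
    have h1 := level_eq t0 hP' (P'.support_dropUntil_subset_support hvP' (Pb.getVert_mem_support i))
    have h2 := level_eq t0 hP' hvP'
    have h3 := level_eq t0 hPb (Pb.getVert_mem_support i)
    linarith
  have hEup : ∀ i, E i ≤ passU t U y s + σ.Γ - G := fun i => by
    have := hT₁hi _ (hmemb (σ.nB i))
    have := htri hsU hvU (hmemb (σ.nB i))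
    simp only [hE]
    linarith
  have hElo : ∀ i, passU t U y v - G - H ≤ E i := fun i => by
    have := hT₁lo _ (hmemb (σ.nB i))
    have := hsplitb (σ.nB i)
    simp only [hE]
    linarith
  have hys : passU t U y s ≤ passU t U y v + σ.Γ := by
    have := htri hyU hvU hsU
    have := passU_comm t0 U v s
    linarith
  have hm := σ.hm
  obtain ⟨j, hjm, hdrop⟩ := exists_small_drop E (g := g) (m := σ.m) (by
    linarith [hEup 0, hElo σ.m, hgainEA.2])
  -- the window on `Pb`
  have hj1 : σ.nB (j + 1) ≤ σ.nB σ.m := σ.nB_mono hjm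
  have hj0 : σ.nB 0 ≤ σ.nB j := σ.nB_mono (Nat.zero_le j)
  have hjs := σ.hnBs j
  have hRB := σ.hRB
  have hnB₁ := σ.hnB₁
  have hlongB : σ.nB (j + 1) ≤ Pb.length := by
    have := supDist_le_length s Pb
    have := hS x' hx'S
    omega
  obtain ⟨EB, hEBc, hEB⟩ := exists_window hPb.isPath (ht.lowK v (mem_boxSet.2 hvK))
    (n := σ.nB j) (k := σ.kB) (by omega) (by omega)
  have hdistB : ∀ e ∈ EB, ∀ w ∈ e, ∃ i, σ.nB j ≤ i ∧ i ≤ σ.nB (j + 1) ∧
      w = Pb.getVert i := fun e he w hw => by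
    obtain ⟨-, i, h1, h2, h3, rfl⟩ := hEB e he
    rcases Sym2.mem_iff.1 hw with rfl | rfl
    exacts [⟨i, h1, by omega, rfl⟩, ⟨i + 1, by omega, by omega, rfl⟩]
  have hnearB : ∀ e ∈ EB, ∀ w ∈ e, supDist s w ≤ σ.R := fun e he w hw => by
    obtain ⟨i, -, h2, rfl⟩ := hdistB e he w hw
    have := supDist_getVert s Pb i
    omega
  have hEBR : EB ⊆ edgeBox s σ.R := fun e he => mem_edgeBox (hnearB e he)
  -- the total lowering on the window
  set lo := E j + passU t U v x' - passU t₁ U y x' with hlo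
  have hvj := level_eq t0 hPb (Pb.getVert_mem_support (σ.nB j))
  have hlo0 : 0 ≤ lo := by
    have h1 := passU_triangle ht₁0 (hconn y hyU _ (hmemb (σ.nB j)))
      (hconn _ (hmemb (σ.nB j)) x' hx'U)
    have h2 : passU t₁ U (Pb.getVert (σ.nB j)) x' ≤ passU t U (Pb.getVert (σ.nB j)) x' :=
      le_passU (hconn _ (hmemb (σ.nB j)) x' hx'U) fun q hq =>
        (passU_le ht₁0 q hq).trans (wlen_le_wlen ht₁le q)
    simp only [hlo, hE]
    linarith
  have hbound : lo ≤ 2 * σ.Γ + g * σ.kA := by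
    have := hEup j
    have := hT₁lo x' hx'U
    have := level_eq t0 hP' hvP'
    simp only [hlo]
    linarith [hgainEA.2]
  have hkB : lo < gain t ξ EB := by
    have := card_nsmul_le_sum EB (fun e => t e - ξ e) c.dmin
      (fun e he => (hlowd e (hEBR he) (hEB e he).1).1)
    rw [hEBc, nsmul_eq_mul] at this
    have := σ.hkB
    simp only [gain]
    nlinarith
  obtain ⟨B, hBE, hθlo, hθhi⟩ := exists_subset_sum (fun e => t e - ξ e) hlo0 EB
    (g := g) (fun e he => (hlowd e (hEBR he) (hEB e he).1).2.1) hkB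
  set F := EI ∪ EA ∪ B with hF
  have hFR : F ⊆ edgeBox s σ.R := union_subset (union_subset hEIR hEAR) (hBE.trans hEBR)
  refine ⟨F, hFR, ?_⟩
  set t' := mix t ξ F with ht'
  by_cases hu : PathUnique t'
  swap
  · exact Or.inr hu
  refine Or.inl ?_
  have hFlow : ∀ e ∈ F, t e ∈ c.low := fun e he => by
    rcases mem_union.1 he with h | h
    · rcases mem_union.1 h with h | h
      exacts [(hEI e h).1, (hEA e h).1]
    · exact (hEB e (hBE h)).1
  have ht'0 : ∀ e, 0 ≤ t' e := fun e => by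
    simp only [ht', mix]
    split_ifs with h
    exacts [(hlowd e (hFR h) (hFlow e h)).2.2, t0 e]
  have ht'le : ∀ e, t' e ≤ t e := fun e => by
    simp only [ht', mix]
    split_ifs with h
    exacts [by linarith [(hlowd e (hFR h) (hFlow e h)).1, c.dmin_pos], le_rfl]
  have hgeq : ∀ A : Finset (Sym2 Z2), A ⊆ F → gain t t' A = gain t ξ A := fun A hA =>
    sum_congr rfl fun e he => by simp [ht', mix, hA he]
  have ht₁eq : mix t t' (EI ∪ EA) = t₁ := by
    funext e
    by_cases h : e ∈ EI ∪ EA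
    · simp only [ht₁, ht', mix, if_pos h, if_pos (show e ∈ F from mem_union_left _ h)]
    · simp [ht₁, mix, h]
  set θ := gain t ξ B with hθ
  set Va := passU t U y x + 4 * g - passU t U y v with hVadef
  set Λ := 6 * σ.Γ + g * σ.kI + g * σ.kA + (2 * σ.Γ + g * σ.kA + g) + 1 with hΛdef
  have hA' : ∀ e ∈ EA, e ∈ Pa.edges := fun e he => by
    obtain ⟨-, i, -, -, h3, rfl⟩ := hEA e he
    exact edge_mem_of_lt Pa h3
  have hI' : ∀ e ∈ EI, e ∈ Pi.edges := fun e he => by
    obtain ⟨-, i, -, -, h3, rfl⟩ := hEI e he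
    have := edge_mem_of_lt Pi.reverse h3
    rwa [Walk.edges_reverse, List.mem_reverse] at this
  have hys' := level_eq t0 hP hsP
  have hyv' := level_eq t0 hP' hvP'
  have hℓ0 : 0 ≤ σ.ℓ := le_trans (sum_nonneg fun e _ => t0 e) ht.sumA
  have hdmin := c.dmin_pos
  have hθle : θ ≤ 2 * σ.Γ + g * σ.kA + g := le_trans hθhi (by linarith)
  let d : BranchData t t' U y x x' s v :=
    { ht' := ht'0
      le := ht'le
      conn := hconn
      Pi := Pi
      hPi := hPi
      Pa := Pa
      hPa := hPa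
      Pb := Pb
      hPb := hPb
      I := EI
      hI := hI'
      A := EA
      hA := hA'
      B := B
      hB := fun e he => by
        obtain ⟨-, i, -, -, h3, rfl⟩ := hEB e (hBE he)
        exact edge_mem_of_lt Pb h3
      hout := fun e h1 h2 h3 => by simp [ht', mix, hF, h1, h2, h3]
      v₀ := Pb.getVert (σ.nB j)
      v₁ := Pb.getVert (σ.nB (j + 1))
      hv₀ := Pb.getVert_mem_support _
      hv₁ := Pb.getVert_mem_support _
      hv₀B := fun e he => by
        obtain ⟨-, i, h1, -, h3, rfl⟩ := hEB e (hBE he)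
        rw [edges_dropUntil_getVert hPb.isPath (by omega)]
        exact mem_drop_edges Pb h1 h3
      hv₁B := fun e he w hw => by
        obtain ⟨i, -, h2, rfl⟩ := hdistB e (hBE he) w hw
        exact geo_level_mono t0 hPb h2 hlongB
      G₀ := 2 * σ.Γ
      Γ := σ.Γ
      G := G
      H := H
      θ := θ
      δ := g
      Λ := Λ
      ℓ := σ.ℓ
      hG := hgeq EI (subset_union_left.trans subset_union_left)
      hH := hgeq EA (subset_union_right.trans subset_union_left)
      hθ := hgeq B subset_union_right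
      slack_a := by linarith
      slack_b := by
        have := htri hsU hvU hx'U
        linarith
      uv := huv
      levI := fun e he w hw => by
        obtain ⟨i, h1, h2, rfl⟩ := hdistI e he w hw
        have := geo_level_ge t0 hPr (ht.lowK s hKs) (hn₁.trans h1) (h2.trans hlongI)
        have h4 : c.dmin / 2 * (σ.n : ℝ) ≤ c.dmin / 2 * i :=
          mul_le_mul_of_nonneg_left (by exact_mod_cast h1) (by positivity)
        rw [passU_comm t0]
        linarith [σ.hn]
      levA := fun e he w hw => by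
        refine ⟨?_, (passU_le_box t0 hboxA (by omega) (hnearA e he w hw)).trans ht.sumA⟩
        obtain ⟨i, h1, h2, rfl⟩ := hdistA e he w hw
        have := geo_level_ge t0 hPa (ht.lowK s hKs) (hn₁.trans h1) (h2.trans hlongA)
        have h4 : c.dmin / 2 * (σ.n : ℝ) ≤ c.dmin / 2 * i :=
          mul_le_mul_of_nonneg_left (by exact_mod_cast h1) (by positivity)
        linarith [σ.hn]
      levB := fun e he w hw => by
        obtain ⟨i, h1, h2, rfl⟩ := hdistB e (hBE he) w hw
        have := geo_level_ge t0 hPb (ht.lowK v (mem_boxSet.2 hvK))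
          (show σ.n₁ ≤ i by omega) (h2.trans hlongB)
        have h4 : c.dmin / 2 * (σ.nB 0 : ℝ) ≤ c.dmin / 2 * i :=
          mul_le_mul_of_nonneg_left (by exact_mod_cast (hj0.trans h1)) (by positivity)
        linarith [σ.hnB]
      hℓ := hℓ0
      hΛ := by linarith [hgainEI.2, hgainEA.2]
      hH₀ := by linarith [σ.hkA, hgainEA.1]
      hGH := by linarith [σ.hkI, hgainEI.1, hgainEA.2]
      e₀ := e₀
      w₀ := s
      hw₀ := hs
      hw₀U := hsU
      near₀ := by rw [passU_self t0 hsU]; exact hΓ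
      Va := Va
      hVa := fun p hp q hq hqe => by
        have hp' : p ∈ P'.support := P'.support_dropUntil_subset_support hvP' hp
        have h1 := hmarg ((P'.takeUntil p hp').append q) (fun w hw => by
            rcases (Walk.mem_support_append_iff _ _).1 hw with h | h
            exacts [hP'.mem (P'.support_takeUntil_subset_support hp' h), hq w h])
          (fun he => by
            rw [Walk.edges_append, List.mem_append] at he
            exact he.elim (fun h => heP' (P'.edges_takeUntil_subset_edges hp' h)) hqe)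
        rw [wlen_append, (hP'.left t0 hp').wlen_eq_passU t0] at h1
        have h2 := level_eq t0 hP' hp'
        have h3 := level_eq t0 hPb hp
        linarith
      flat := by
        rw [ht₁eq]
        simp only [hE] at hdrop
        linarith }
  have hgap := d.passU₁_gap
  have hes : d.eStar = E j := by
    simp only [BranchData.eStar, BranchData.t₁, hE]
    rw [show mix t t' (d.I ∪ d.A) = t₁ from ht₁eq]
  have ht₁d : d.t₁ = t₁ := ht₁eq
  rw [ht₁d] at hgap
  have hlow' : d.eStar + passU t U v x' - d.θ < passU d.t₁ U y x' := by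
    rw [hes, ht₁d]
    change _ - θ < _
    have h : lo < θ := hθlo
    linarith
  have hhigh' : passU d.t₁ U y x < d.eStar - d.δ - d.θ + d.Va := by
    rw [hes, ht₁d]
    change _ < _ - g - θ + Va
    have h : θ ≤ lo + g := hθhi
    have := htri hyU hsU hx'U
    linarith
  obtain ⟨Qa, hQa⟩ := exists_geoU (t := t') hUf (hconn y hyU x (hP.mem P.end_mem_support))
  obtain ⟨Qb, hQb⟩ := exists_geoU (t := t') hUf (hconn y hyU x' hx'U)
  obtain ⟨hnoB, ⟨f, hfQ, hfB⟩, q, hqa, hqb, eI, heI, hqI⟩ :=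
    d.branch hu hlow' hhigh' hQa hQb
  obtain ⟨k, m, hka, hkl, hml, hfm, ⟨kq, hkqk, hkq⟩, hkm, hdisj⟩ :=
    exists_split ht'0 hu hQa hQb hqa hqb hfQ (fun h => hnoB f h hfB)
  have hqR : supDist s q ≤ σ.R := hnearI eI heI q hqI
  have hmR : supDist s (Qb.getVert m) ≤ σ.R :=
    hnearB f (hBE hfB) _ (hfm ▸ Sym2.mem_mk_left _ _)
  -- the branch vertex is close to `q`
  have hwnear : supDist s (Qb.getVert k) ≤ σ.L := by
    set seg := (Qb.drop kq).take (k - kq) with hseg
    have hend : (Qb.drop kq).getVert (k - kq) = Qb.getVert k := by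
      rw [Walk.drop_getVert, Nat.add_sub_cancel' hkqk]
    have hslen : seg.length = k - kq := by
      rw [hseg, Walk.take_length, Walk.drop_length]
      omega
    have hsp : seg.IsPath := (hQb.isPath.drop kq).take _
    have hdist := supDist_le_length s seg
    rw [hslen, hend, hkq] at hdist
    rcases lt_or_ge (k - kq) σ.n₂ with hlt | hge
    · have := σ.hL₂; omega
    have hlow := ht.lowR (Qb.getVert kq) (mem_boxSet.2 (by rw [hkq]; exact hqR))
    have h1 := cost_ge t0 hlow hsp (by omega)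
    rw [hslen] at h1
    have h2 : wlen t seg ≤ wlen t' seg + (G + H + θ) := by
      rw [d.wlen_t' hsp]
      linarith [d.gain_le seg.edges.toFinset, show d.G = G from rfl, show d.H = H from rfl,
        show d.θ = θ from rfl]
    have h3 : wlen t' seg = passU t' U y (Qb.getVert k) - passU t' U y (Qb.getVert kq) := by
      have h : wlen t' (Qb.take k) = wlen t' (Qb.take kq) + wlen t' seg := by
        simp only [hseg, wlen, Walk.edges_take, Walk.edges_drop]
        conv_lhs => rw [← Nat.add_sub_cancel' hkqk, List.take_add, List.map_append, List.sum_append]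
      rw [geo_wlen_take ht'0 hQb hkl, geo_wlen_take ht'0 hQb (hkqk.trans hkl)] at h
      linarith
    have h4 := geo_level_mono ht'0 hQb hkm hml.le
    have hqU := hQb.mem (Qb.getVert_mem_support kq)
    have hmU := hQb.mem (Qb.getVert_mem_support m)
    have h5 := passU_triangle ht'0 (hconn y hyU _ hqU) (hconn _ hqU _ hmU)
    have h6 : passU t' U (Qb.getVert kq) (Qb.getVert m) ≤ σ.ΓR := by
      refine (le_trans ?_ (passU_le_box t0 (fun w hw => hbox w (hw.trans hRL))
        (hkq ▸ hqR) hmR)).trans ht.sumR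
      exact le_passU (hconn _ hqU _ hmU) fun r hr =>
        (passU_le ht'0 r hr).trans (wlen_le_wlen ht'le r)
    have := σ.hL (k - kq) hge (by linarith [hgainEI.2, hgainEA.2, show θ ≤ lo + g from hθhi])
    omega
  refine ⟨Qb.getVert k, x, x', Qa, Qb, hka, Qb.getVert_mem_support k, hxS, hx'S, ?_, hQa, hQb,
    hwnear, hdisj⟩
  intro hxx
  subst hxx
  exact absurd (hQa.unique hu hQb ▸ hfQ) (fun h => hnoB f h hfB)

end Branch

end

end Vale.P158
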