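import Vale.Agent.P158.Branch.Cells
import Vale.Agent.P158.Branch.Core

/-!
# P158, branch lemma: indices, levels and windows along geodesics
-/

namespace Vale.P158

open SimpleGraph Finset

noncomputable section

namespace Branch

variable {t : Sym2 Z2 → ℝ} {U : Set Z2}

lemma exists_index {x y : Z2} (p : lattice.Walk x y) {e : Sym2 Z2} (he : e ∈ p.edges) :
    ∃ i, i < p.length ∧ e = s(p.getVert i, p.getVert (i + 1)) := by
  obtain ⟨i, hi, rfl⟩ := List.mem_iff_getElem.1 he
  refine ⟨i, by simpa using hi, ?_⟩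
  simp [Walk.edges_eq_map_darts, Walk.darts_getElem_eq_getVert]

lemma getElem_edges {x y : Z2} (p : lattice.Walk x y) {i : ℕ} (hi : i < p.edges.length) :
    p.edges[i] = s(p.getVert i, p.getVert (i + 1)) := by
  simp [Walk.edges_eq_map_darts, Walk.darts_getElem_eq_getVert]

lemma edge_mem_of_lt {x y : Z2} (p : lattice.Walk x y) {i : ℕ} (hi : i < p.length) :
    s(p.getVert i, p.getVert (i + 1)) ∈ p.edges := by
  rw [← getElem_edges p (i := i) (by simpa using hi)]
  exact List.getElem_mem _

lemma length_takeUntil_getVert {x y : Z2} {p : lattice.Walk x y} (hp : p.IsPath) {j : ℕ}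
    (hj : j ≤ p.length) :
    (p.takeUntil (p.getVert j) (p.getVert_mem_support j)).length = j :=
  hp.getVert_injOn (p.length_takeUntil_le_length (p.getVert_mem_support j))
    (show j ∈ {i | i ≤ p.length} from hj) (p.getVert_length_takeUntil (p.getVert_mem_support j))

lemma edges_takeUntil_getVert {x y : Z2} {p : lattice.Walk x y} (hp : p.IsPath) {j : ℕ}
    (hj : j ≤ p.length) :
    (p.takeUntil (p.getVert j) (p.getVert_mem_support j)).edges = p.edges.take j := by
  have h := List.prefix_iff_eq_take.1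
    (p.edges_takeUntil_prefix_edges (p.getVert_mem_support j))
  rwa [Walk.length_edges, length_takeUntil_getVert hp hj] at h

lemma edges_dropUntil_getVert {x y : Z2} {p : lattice.Walk x y} (hp : p.IsPath) {j : ℕ}
    (hj : j ≤ p.length) :
    (p.dropUntil (p.getVert j) (p.getVert_mem_support j)).edges = p.edges.drop j := by
  refine List.append_cancel_left (as := p.edges.take j) ?_
  rw [List.take_append_drop]
  conv_rhs => rw [← p.take_spec (p.getVert_mem_support j), Walk.edges_append,
    edges_takeUntil_getVert hp hj]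

lemma mem_drop_edges {x y : Z2} (p : lattice.Walk x y) {j i : ℕ} (hji : j ≤ i)
    (hi : i < p.length) : s(p.getVert i, p.getVert (i + 1)) ∈ p.edges.drop j := by
  refine List.mem_iff_getElem.2 ⟨i - j, by simp; omega, ?_⟩
  rw [List.getElem_drop, getElem_edges]
  simp only [Nat.add_sub_cancel' hji]

lemma mem_take_edges {x y : Z2} (p : lattice.Walk x y) {i j : ℕ} (hij : i < j)
    (hi : i < p.length) : s(p.getVert i, p.getVert (i + 1)) ∈ p.edges.take j := by
  refine List.mem_iff_getElem.2 ⟨i, by simp; omega, ?_⟩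
  rw [List.getElem_take, getElem_edges]

/-- A geodesic costs the passage time up to each of its vertices. -/
lemma geo_wlen_take (ht : ∀ e, 0 ≤ t e) {x y : Z2} {p : lattice.Walk x y} (h : IsGeoU t U p)
    {j : ℕ} (hj : j ≤ p.length) : wlen t (p.take j) = passU t U x (p.getVert j) := by
  rw [← (h.left ht (p.getVert_mem_support j)).wlen_eq_passU ht]
  simp only [wlen, Walk.edges_take, edges_takeUntil_getVert h.isPath hj]

lemma geo_level_mono (ht : ∀ e, 0 ≤ t e) {x y : Z2} {p : lattice.Walk x y} (h : IsGeoU t U p)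
    {i j : ℕ} (hij : i ≤ j) (hj : j ≤ p.length) :
    passU t U x (p.getVert i) ≤ passU t U x (p.getVert j) := by
  rw [← geo_wlen_take ht h hj, ← geo_wlen_take ht h (hij.trans hj)]
  simp only [wlen, Walk.edges_take]
  obtain ⟨k, rfl⟩ := Nat.exists_eq_add_of_le hij
  rw [List.take_add, List.map_append, List.sum_append]
  exact le_add_of_nonneg_right (List.sum_nonneg fun z hz => by
    obtain ⟨e, _, rfl⟩ := List.mem_map.1 hz; exact ht e)

/-- Far vertices of a geodesic are expensive. -/
lemma geo_level_ge {μ : MeasureTheory.Measure ℝ} {g : ℝ} {c : Cells μ g} (ht : ∀ e, 0 ≤ t e)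
    {x y : Z2} {p : lattice.Walk x y} (h : IsGeoU t U p) {n₀ : ℕ} (hlow : LongLow c t x n₀)
    {i : ℕ} (hn : n₀ ≤ i) (hi : i ≤ p.length) :
    c.dmin / 2 * i ≤ passU t U x (p.getVert i) := by
  have := cost_ge ht hlow (h.isPath.take i) (by rw [Walk.take_length]; omega)
  rwa [geo_wlen_take ht h hi, Walk.take_length, min_eq_left hi] at this

/-- A window of a path with enough lowerable edges. -/
lemma exists_window {μ : MeasureTheory.Measure ℝ} {g : ℝ} {c : Cells μ g} {x y : Z2}
    {p : lattice.Walk x y} (hp : p.IsPath) {n₀ : ℕ} (hlow : LongLow c t x n₀) {n k : ℕ}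
    (h₀ : n₀ ≤ 2 * (n + k)) (hN : 2 * (n + k) ≤ p.length) :
    ∃ E : Finset (Sym2 Z2), E.card = k ∧ ∀ e ∈ E, t e ∈ c.low ∧
      ∃ i, n ≤ i ∧ i < 2 * (n + k) ∧ i < p.length ∧ e = s(p.getVert i, p.getVert (i + 1)) := by
  classical
  have h1 := hlow _ (p.take (2 * (n + k))) (hp.take _) (by rw [Walk.take_length]; omega)
  rw [Walk.take_length, min_eq_left hN] at h1
  have hnd := hp.isTrail.edges_nodup
  have h2 : (p.take n).edges.toFinset.card ≤ n :=
    (List.toFinset_card_le _).trans (by simp [Walk.take_length])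
  have h3 := Finset.le_card_sdiff (p.take n).edges.toFinset (lowEdges c t (p.take (2 * (n + k))))
  obtain ⟨E, hE, hEc⟩ := Finset.exists_subset_card_eq (s := lowEdges c t (p.take (2 * (n + k))) \
    (p.take n).edges.toFinset) (n := k) (by omega)
  refine ⟨E, hEc, fun e he => ?_⟩
  obtain ⟨h4, h5⟩ := Finset.mem_sdiff.1 (hE he)
  simp only [lowEdges, mem_filter, List.mem_toFinset, Walk.edges_take] at h4 h5
  obtain ⟨i, hi, rfl⟩ := List.mem_iff_getElem.1 h4.1
  simp only [List.length_take, Walk.length_edges] at hi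
  rw [List.getElem_take] at h4 h5 ⊢
  rw [getElem_edges] at h4 h5 ⊢
  refine ⟨h4.2, i, not_lt.1 fun hlt => h5 (mem_take_edges p hlt (by omega)), by omega, by omega, rfl⟩

/-- Totals of amounts in `(0, g]` are `g`-dense. -/
lemma exists_subset_sum {ι : Type*} [DecidableEq ι] (d : ι → ℝ) {g lo : ℝ} (hlo : 0 ≤ lo)
    (E : Finset ι) (hd : ∀ e ∈ E, d e ≤ g) (hE : lo < ∑ e ∈ E, d e) :
    ∃ B ⊆ E, lo < ∑ e ∈ B, d e ∧ ∑ e ∈ B, d e ≤ lo + g := by
  induction E using Finset.induction_on with
  | empty => simp at hE; linarith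
  | @insert a E ha ih =>
    by_cases h : lo < ∑ e ∈ E, d e
    · obtain ⟨B, h1, h2⟩ := ih (fun e he => hd e (mem_insert_of_mem he)) h
      exact ⟨B, h1.trans (subset_insert _ _), h2⟩
    · refine ⟨insert a E, subset_rfl, hE, ?_⟩
      rw [sum_insert ha]
      linarith [hd a (mem_insert_self a E)]

/-- Some step of a bounded sequence is small. -/
lemma exists_small_drop (f : ℕ → ℝ) {g : ℝ} {m : ℕ} (hm : f 0 - f m < g * m) :
    ∃ j < m, f j - f (j + 1) ≤ g := by
  by_contra hcon
  push Not at hcon
  have h := Finset.sum_le_sum (s := range m) (f := fun _ => g) (g := fun j => f j - f (j + 1))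
    fun j hj => (hcon j (mem_range.1 hj)).le
  rw [Finset.sum_range_sub', Finset.sum_const, card_range, nsmul_eq_mul] at h
  linarith

end Branch

end

end Vale.P158
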